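import Crest.Agent.R318.Inst

/-!
Completeness: from an assignment to a matching.
-/

set_option autoImplicit false

namespace Crest.Agent.R318

open Finset

namespace Inst

variable {r : ℕ} {G : Gadget r} (I : Inst G)

theorem core (σ : Fin I.n → Bool) : ∃ π ρ : Equiv.Perm I.U, ∀ u,
    I.cell (π u) = I.cell u ∧ I.rg (π u) = I.rg u ∧ I.cell (ρ u) = I.cell u ∧
      (I.hi u - I.lo (π u) ≤ I.th (ρ u) ∨
        ∃ j s y, u = .inr (j, s, y) ∧ σ (I.var j s) ≠ I.sgn j s ∧ π u = u) := by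
  classical
  choose g hg1 hg2 using G.cover
  have hns : ∀ a b : Bool, ¬ a = b → a = !b := by decide
  let grp : I.U → I.U ⊕ (Fin I.n × (Fin r ⊕ G.T)) := fun u => match u with
    | .inl (_, .inl _) => .inl u
    | .inl (i, .inr (l, q)) =>
      if h : G.side l = σ i then .inr (i, .inl q) else .inr (i, .inr (g (!σ i) l (hns _ _ h) q))
    | .inr (j, s, _, q) => if σ (I.var j s) = I.sgn j s then .inr (I.var j s, .inl q) else .inl u
  let gc : I.U ⊕ (Fin I.n × (Fin r ⊕ G.T)) → Fin I.n × Bool := fun x => match x with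
    | .inl u => (I.cell u, I.rg u)
    | .inr (i, .inl _) => (i, σ i)
    | .inr (i, .inr _) => (i, !σ i)
  have hgc : ∀ u, gc (grp u) = (I.cell u, I.rg u) := by
    rintro (⟨i, x | ⟨l, q⟩⟩ | ⟨j, s, p, q⟩)
    · rfl
    · simp only [grp]
      split_ifs with h
      · simp only [gc, cell, rg, h]
      · simp only [gc, cell, rg, hns _ _ h]
    · simp only [grp]
      split_ifs with h
      · simp only [gc, cell, rg, h]
      · rfl
  have hinl : ∀ u v, grp u = .inl v → u = v := by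
    rintro (⟨i, x | ⟨l, q⟩⟩ | ⟨j, s, p, q⟩) v h
    · exact Sum.inl_injective h
    · simp only [grp] at h
      split_ifs at h
    · simp only [grp] at h
      split_ifs at h
      exact Sum.inl_injective h
  have htop : ∀ u i q, grp u = .inr (i, .inl q) →
      (∃ l, u = .inl (i, .inr (l, q))) ∨ ∃ j s p, u = .inr (j, s, p, q) := by
    rintro (⟨i, x | ⟨l, q⟩⟩ | ⟨j, s, p, q⟩) i' q' h
    · cases h
    · simp only [grp] at h
      split_ifs at h
      · obtain ⟨rfl, rfl⟩ : i = i' ∧ q = q' := by simpa using h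
        exact Or.inl ⟨l, rfl⟩
      · simp at h
    · simp only [grp] at h
      split_ifs at h
      obtain ⟨-, rfl⟩ : I.var j s = i' ∧ q = q' := by simpa using h
      exact Or.inr ⟨j, s, p, rfl⟩
  have hpur : ∀ u i t, grp u = .inr (i, .inr t) →
      ∃ l q h, u = .inl (i, .inr (l, q)) ∧ g (!σ i) l h q = t := by
    rintro (⟨i, x | ⟨l, q⟩⟩ | ⟨j, s, p, q⟩) i' t h
    · cases h
    · simp only [grp] at h
      split_ifs at h with h1
      · simp at h
      · obtain ⟨rfl, e⟩ : i = i' ∧ g (!σ i) l (hns _ _ h1) q = t := by simpa using h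
        exact ⟨l, q, _, rfl, e⟩
    · simp only [grp] at h
      split_ifs at h
      simp at h
  have hkey : ∀ u v, grp u = grp v → I.lo u = I.lo v → u = v := by
    intro u v e1 e2
    rcases hu : grp u with x | ⟨i, q | t⟩
    · rw [hinl u x hu, hinl v x (e1 ▸ hu)]
    · rcases htop u i q hu with ⟨l, rfl⟩ | ⟨j, s, p, rfl⟩ <;>
        rcases htop v i q (e1 ▸ hu) with ⟨l', rfl⟩ | ⟨j', s', p', rfl⟩
      · have := I.leaf_inj (.inl l) (.inl l') e2
        cases this; rfl
      · cases I.leaf_inj (.inl l) (.inr (j', s', p')) e2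
      · cases I.leaf_inj (.inr (j, s, p)) (.inl l') e2
      · have := I.leaf_inj (.inr (j, s, p)) (.inr (j', s', p')) e2
        cases this; rfl
    · obtain ⟨l, q, h, rfl, e⟩ := hpur u i t hu
      obtain ⟨l', q', h', rfl, e'⟩ := hpur v i t (e1 ▸ hu)
      have := I.leaf_inj (.inl l) (.inl l') e2
      cases this
      rw [hg1 _ l h (e.trans e'.symm)]
  obtain ⟨π, hπ1, hπ2⟩ := exists_perm_cyc grp I.lo hkey
  let f : I.U → I.U := fun u => match grp u with
    | .inl v => v
    | .inr (i, h) => .inl (i, .inl h)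
  obtain ⟨ρ, hρ1, hρ2⟩ := exists_perm_ext I.cell
    (univ.filter (fun u => (∃ x, grp u = .inr x) ∧ ∀ v, grp v = grp u → I.lo v ≤ I.lo u)) f (by
      intro u hu v hv e
      simp only [coe_filter, mem_univ, true_and, Set.mem_ofPred_eq] at hu hv
      obtain ⟨⟨⟨i, h⟩, a1⟩, a2⟩ := hu
      obtain ⟨⟨⟨i', h'⟩, b1⟩, b2⟩ := hv
      simp only [f, a1, b1] at e
      obtain ⟨rfl, rfl⟩ : i = i' ∧ h = h' := by simpa using e
      exact hkey u v (a1.trans b1.symm) (le_antisymm (b2 u (a1.trans b1.symm))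
        (a2 v (b1.trans a1.symm)))) (by
      intro u hu
      simp only [mem_filter, mem_univ, true_and] at hu
      obtain ⟨⟨⟨i, h⟩, a1⟩, -⟩ := hu
      have := hgc u
      simp only [f, a1] at this ⊢
      rcases h with q | t
      · exact (Prod.ext_iff.1 this).1
      · exact (Prod.ext_iff.1 this).1)
  refine ⟨π, ρ, fun u => ?_⟩
  have e := hgc (π u)
  rw [hπ1, hgc] at e
  refine ⟨(Prod.ext_iff.1 e).1.symm, (Prod.ext_iff.1 e).2.symm, hρ1 u, ?_⟩
  have ht := (I.th_bounds (ρ u)).1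
  rcases hπ2 u with h | h
  · left
    have : I.hi u ≤ I.lo (π u) := I.lsep _ _ h
    omega
  · rcases hu : grp u with x | ⟨i, x⟩
    · have e1 : π u = u := (hinl (π u) x ((hπ1 u).trans hu)).trans (hinl u x hu).symm
      rcases u with ⟨i, x | ⟨l, q⟩⟩ | ⟨j, s, p, q⟩
      · left
        rw [e1]
        simpa [hi, lo, leaf, lhi, llo] using ht
      · simp only [grp] at hu
        split_ifs at hu
      · right
        refine ⟨j, s, (p, q), rfl, fun hc => ?_, e1⟩
        simp only [grp, hc, if_true] at hu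
        cases hu
    · left
      have e1 : ρ u = .inl (i, .inl x) := by
        rw [hρ2 u (by
          simp only [mem_filter, mem_univ, true_and]
          exact ⟨⟨_, hu⟩, h⟩)]
        simp only [f, hu]
      rw [e1]
      rcases x with q | t
      · have := (I.hi_bounds u).2
        have := (I.lo_bounds (π u)).1
        simp only [th]
        omega
      · obtain ⟨l', q', hl', e2, e3⟩ := hpur (π u) i t ((hπ1 u).trans hu)
        obtain ⟨l, q, hl, e4, e5⟩ := hpur u i t hu
        have := hg2 _ l hl l' hl' q q' (e5.trans e3.symm)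
        rw [e2, e4]
        rw [e5] at this
        simp only [hi, lo, leaf, lhi, llo, th]
        omega

theorem v_sum {a b c d : I.U} (h1 : I.cell b = I.cell a) (h2 : I.rg b = I.rg a)
    (h3 : I.cell c = I.cell a) (h : I.hi a - I.lo b ≤ I.th c + I.dl d - I.ph a) :
    I.v 0 a + I.v 1 b + I.v 2 c + I.v 3 d ≤ 0 := by
  simp only [v, val, h1, h2, h3]
  simp
  linarith

theorem row_ok {σ : Fin I.n → Bool} {π ρ : Equiv.Perm I.U} {u : I.U}
    (h : I.cell (π u) = I.cell u ∧ I.rg (π u) = I.rg u ∧ I.cell (ρ u) = I.cell u ∧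
      (I.hi u - I.lo (π u) ≤ I.th (ρ u) ∨
        ∃ j s y, u = .inr (j, s, y) ∧ σ (I.var j s) ≠ I.sgn j s ∧ π u = u)) (d : I.U)
    (hd : (∃ x, u = .inl x ∧ d = u) ∨ ∃ j s y s' y', u = .inr (j, s, y) ∧ d = .inr (j, s', y') ∧
      (σ (I.var j s) ≠ I.sgn j s → (s' : ℕ) ≠ 0)) :
    I.v 0 u + I.v 1 (π u) + I.v 2 (ρ u) + I.v 3 d ≤ 0 := by
  obtain ⟨h1, h2, h3, h4⟩ := h
  apply I.v_sum h1 h2 h3
  rcases hd with ⟨x, rfl, rfl⟩ | ⟨j, s, ⟨p, q⟩, s', y', rfl, rfl, hs⟩
  · rcases h4 with h4 | ⟨j, s, y, e, -⟩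
    · simpa [dl, ph] using h4
    · cases e
  · have := I.w_pos j
    rcases h4 with h4 | ⟨j2, s2, y, e, e1, e2⟩
    · simp only [dl, ph]
      split_ifs <;> omega
    · cases e
      rw [e2]
      have := (I.th_bounds (ρ (.inr (j, s, p, q)))).1
      have := I.clause_wid j s p
      simp only [dl, ph, hs e1, if_false, hi, lo, leaf]
      omega

theorem complete (hk : 0 < I.k) (σ : Fin I.n → Bool)
    (hσ : ∀ j, ∃ s, σ (I.var j s) = I.sgn j s) : N4 I.v 0 := by
  obtain ⟨π, ρ, h⟩ := I.core σ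
  choose s0 hs0 using hσ
  let t : I.U → I.U := fun u => match u with
    | .inl x => .inl x
    | .inr (j, s, y) => .inr (j, Equiv.swap (s0 j) ⟨0, hk⟩ s, y)
  have ht : Function.Involutive t := by
    rintro (x | ⟨j, s, y⟩)
    · rfl
    · simp [t]
  refine ⟨π, ρ, ht.toPerm, ?_⟩
  rw [Nat.le_zero, Finset.card_eq_zero, Finset.filter_eq_empty_iff]
  intro u _
  rw [not_not]
  apply I.row_ok (h u)
  rcases u with x | ⟨j, s, y⟩
  · exact Or.inl ⟨x, rfl, rfl⟩
  · refine Or.inr ⟨j, s, y, Equiv.swap (s0 j) ⟨0, hk⟩ s, y, rfl, rfl, fun hne e => hne ?_⟩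
    have : Equiv.swap (s0 j) ⟨0, hk⟩ s = ⟨0, hk⟩ := Fin.ext e
    rw [Equiv.swap_apply_eq_iff, Equiv.swap_apply_right] at this
    rw [this]
    exact hs0 j

end Inst

end Crest.Agent.R318
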