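import Mathlib

/-!
Systems of segments and covering tokens.  A token of length `θ` covers a family of segments lying
in one component when their hull has length at most `θ`.  We build systems whose tokens can cover
every segment of one side `r` times, or every segment of the other side `r` times, but cannot
cover all segments of both sides even once.
-/

set_option autoImplicit false

namespace Crest.Agent.R318

open Finset

/-- Segments grouped in components, with tokens. -/
structure Sys (n : ℕ) where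
  L : Type
  T : Type
  C : Type
  fL : Fintype L
  fT : Fintype T
  fC : Fintype C
  comp : L → C
  side : C → Bool
  grp : C → Fin n
  lo : L → ℤ
  hi : L → ℤ
  θ : T → ℤ

attribute [instance] Sys.fL Sys.fT Sys.fC

namespace Sys

variable {n : ℕ}

/-- Feasible covering relations. -/
def Valid (S : Sys n) (cov : S.L → S.T → Prop) : Prop :=
  ∀ l l' t, cov l t → cov l' t → S.comp l = S.comp l' ∧ S.hi l - S.lo l' ≤ S.θ t

/-- One side can be covered `a` times. -/
def Cover (S : Sys n) (s : Bool) (a : ℕ) : Prop :=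
  ∃ cov, S.Valid cov ∧ ∀ l, S.side (S.comp l) = s →
    ∃ g : Fin a → S.T, Function.Injective g ∧ ∀ i, cov l (g i)

/-- The invariant of the construction. -/
structure Good (S : Sys n) (a b N Tn : ℕ) (μ lam : ℤ) : Prop where
  disj : ∀ l l', l ≠ l' → S.comp l = S.comp l' → S.hi l ≤ S.lo l' ∨ S.hi l' ≤ S.lo l
  wid : ∀ l, S.lo l + μ < S.hi l
  tok : ∀ t, 0 ≤ S.θ t ∧ S.θ t ≤ lam
  card : Fintype.card S.T ≤ Tn
  covX : S.Cover true a
  covY : S.Cover false b
  nb : ∀ cov, S.Valid cov → ∀ i, ∀ E : Finset S.C, E.card ≤ N →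
    ∃ l, S.grp (S.comp l) = i ∧ S.comp l ∉ E ∧ ∀ t, ¬ cov l t

theorem exists_bound (S : Sys n) : ∃ D : ℤ, 0 ≤ D ∧ ∀ l, |S.lo l| ≤ D ∧ |S.hi l| ≤ D := by
  refine ⟨∑ l, (|S.lo l| + |S.hi l|), Finset.sum_nonneg (fun l _ => by positivity), fun l => ?_⟩
  have := Finset.single_le_sum (s := univ) (f := fun l => |S.lo l| + |S.hi l|)
    (fun l _ => by positivity) (mem_univ l)
  have h1 := abs_nonneg (S.lo l)
  have h2 := abs_nonneg (S.hi l)
  constructor <;> linarith

/-- Placing the components on one line, far apart. -/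
theorem exists_shift (S : Sys n) (Λ : ℤ) (hΛ : 0 ≤ Λ) : ∃ (sh : S.C → ℤ) (D : ℤ),
    (∀ l, 0 ≤ S.lo l + sh (S.comp l) ∧ S.hi l + sh (S.comp l) ≤ D) ∧
    ∀ l l', S.comp l ≠ S.comp l' →
      (S.hi l + sh (S.comp l) ≤ S.lo l' + sh (S.comp l') ∧
        Λ < S.hi l' + sh (S.comp l') - (S.lo l + sh (S.comp l))) ∨
      (S.hi l' + sh (S.comp l') ≤ S.lo l + sh (S.comp l) ∧
        Λ < S.hi l + sh (S.comp l) - (S.lo l' + sh (S.comp l'))) := by
  obtain ⟨D, hD, hb⟩ := S.exists_bound
  let e := Fintype.equivFin S.C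
  refine ⟨fun c => D + (e c : ℕ) * (2 * D + Λ + 1),
    2 * D + Fintype.card S.C * (2 * D + Λ + 1), fun l => ?_, fun l l' hne => ?_⟩
  · have h1 := abs_le.1 (hb l).1
    have h2 := abs_le.1 (hb l).2
    have h3 : ((e (S.comp l) : ℕ) : ℤ) ≤ Fintype.card S.C := by exact_mod_cast (e (S.comp l)).2.le
    have h4 : (0 : ℤ) ≤ (e (S.comp l) : ℕ) := by positivity
    constructor <;> nlinarith
  · have h1 := abs_le.1 (hb l).1
    have h2 := abs_le.1 (hb l).2
    have h3 := abs_le.1 (hb l').1
    have h4 := abs_le.1 (hb l').2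
    have hne' : (e (S.comp l) : ℕ) ≠ e (S.comp l') := fun h => hne (e.injective (Fin.ext h))
    rcases lt_or_gt_of_ne hne' with h | h
    · left
      have : ((e (S.comp l) : ℕ) : ℤ) + 1 ≤ (e (S.comp l') : ℕ) := by exact_mod_cast h
      constructor <;> nlinarith
    · right
      have : ((e (S.comp l') : ℕ) : ℤ) + 1 ≤ (e (S.comp l) : ℕ) := by exact_mod_cast h
      constructor <;> nlinarith

/-- The empty chain. -/
def empty : Sys 0 where
  L := Empty
  T := Empty
  C := Empty
  fL := inferInstance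
  fT := inferInstance
  fC := inferInstance
  comp := id
  side := fun c => c.elim
  grp := fun c => c.elim
  lo := fun c => c.elim
  hi := fun c => c.elim
  θ := fun c => c.elim

theorem good_empty (a b N : ℕ) (μ : ℤ) : empty.Good a b N 0 μ 0 where
  disj := fun l => l.elim
  wid := fun l => l.elim
  tok := fun l => l.elim
  card := by simp [empty]
  covX := ⟨fun l => l.elim, fun l => l.elim, fun l => l.elim⟩
  covY := ⟨fun l => l.elim, fun l => l.elim, fun l => l.elim⟩
  nb := fun _ _ i => i.elim0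

/-- The base system: isolated segments, no tokens. -/
def base (N : ℕ) (μ : ℤ) : Sys 1 where
  L := Fin (N + 1)
  T := Empty
  C := Fin (N + 1)
  fL := inferInstance
  fT := inferInstance
  fC := inferInstance
  comp := id
  side := fun _ => true
  grp := fun _ => 0
  lo := fun _ => 0
  hi := fun _ => μ + 1
  θ := fun c => c.elim

theorem good_base (b N : ℕ) (μ : ℤ) : (base N μ).Good 0 b N 0 μ 0 where
  disj := fun l l' h h' => (h h').elim
  wid := fun l => by simp [base]
  tok := fun l => l.elim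
  card := by simp [base]
  covX := ⟨fun _ t => t.elim, fun _ _ t => t.elim, fun _ _ =>
    ⟨fun i => i.elim0, fun i => i.elim0, fun i => i.elim0⟩⟩
  covY := ⟨fun _ t => t.elim, fun _ _ t => t.elim, fun l h => by simp [base] at h⟩
  nb := fun cov _ i E hE => by
    have : ∃ c : Fin (N + 1), c ∉ E := by
      by_contra hc
      push Not at hc
      have : E = univ := Finset.eq_univ_iff_forall.2 hc
      rw [this] at hE
      have h2 : (univ : Finset (base N μ).C).card = N + 1 := Fintype.card_fin (N + 1)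
      omega
    obtain ⟨c, hc⟩ := this
    exact ⟨c, Subsingleton.elim _ _, hc, fun t => t.elim⟩

/-- Prepending a system to a chain. -/
def cons (S : Sys 1) (R : Sys n) : Sys (n + 1) where
  L := S.L ⊕ R.L
  T := S.T ⊕ R.T
  C := S.C ⊕ R.C
  fL := inferInstance
  fT := inferInstance
  fC := inferInstance
  comp := Sum.map S.comp R.comp
  side := Sum.elim S.side R.side
  grp := Sum.elim (fun _ => 0) (fun c => (R.grp c).succ)
  lo := Sum.elim S.lo R.lo
  hi := Sum.elim S.hi R.hi
  θ := Sum.elim S.θ R.θ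

theorem cover_cons {S : Sys 1} {R : Sys n} {s : Bool} {a : ℕ} (h1 : S.Cover s a)
    (h2 : R.Cover s a) : (S.cons R).Cover s a := by
  obtain ⟨c1, v1, g1⟩ := h1
  obtain ⟨c2, v2, g2⟩ := h2
  refine ⟨fun l t => match l, t with
    | .inl l, .inl t => c1 l t
    | .inr l, .inr t => c2 l t
    | _, _ => False, ?_, ?_⟩
  · rintro (l | l) (l' | l') (t | t) h h' <;> try exact h.elim
    · obtain ⟨e1, e2⟩ := v1 l l' t h h'
      exact ⟨congrArg Sum.inl e1, e2⟩
    · exact h'.elim
    · exact h'.elim
    · obtain ⟨e1, e2⟩ := v2 l l' t h h'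
      exact ⟨congrArg Sum.inr e1, e2⟩
  · rintro (l | l) h
    · obtain ⟨g, hg, hc⟩ := g1 l h
      exact ⟨fun i => .inl (g i), fun i j e => hg (Sum.inl_injective e), hc⟩
    · obtain ⟨g, hg, hc⟩ := g2 l h
      exact ⟨fun i => .inr (g i), fun i j e => hg (Sum.inr_injective e), hc⟩

theorem good_cons {S : Sys 1} {R : Sys n} {a b N T1 T2 : ℕ} {μ μ' l1 l2 : ℤ}
    (h1 : S.Good a b N T1 μ' l1) (h2 : R.Good a b (N + T1) T2 μ l2) (hμ : μ ≤ μ') (hl : l2 ≤ μ') :
    (S.cons R).Good a b N (T1 + T2) μ (max l1 l2) where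
  disj := by
    rintro (l | l) (l' | l') hne hc
    · exact h1.disj l l' (fun e => hne (e ▸ rfl)) (Sum.inl_injective hc)
    · cases hc
    · cases hc
    · exact h2.disj l l' (fun e => hne (e ▸ rfl)) (Sum.inr_injective hc)
  wid := by
    rintro (l | l)
    · have := h1.wid l
      show S.lo l + μ < S.hi l
      omega
    · exact h2.wid l
  tok := by
    rintro (t | t)
    · exact ⟨(h1.tok t).1, (h1.tok t).2.trans (le_max_left _ _)⟩
    · exact ⟨(h2.tok t).1, (h2.tok t).2.trans (le_max_right _ _)⟩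
  card := by
    have := h1.card
    have := h2.card
    have : Fintype.card (S.cons R).T = Fintype.card S.T + Fintype.card R.T :=
      Fintype.card_sum
    omega
  covX := cover_cons h1.covX h2.covX
  covY := cover_cons h1.covY h2.covY
  nb := by
    classical
    intro cov hv i E hE
    refine Fin.cases ?_ (fun i => ?_) i
    · obtain ⟨l, -, e2, e3⟩ := h1.nb (fun l t => cov (.inl l) (.inl t)) (fun l l' t h h' => by
        obtain ⟨e1, e2⟩ := hv _ _ _ h h'
        exact ⟨Sum.inl_injective e1, e2⟩) 0 (Finset.toLeft (α := S.C) (β := R.C) E)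
        (Finset.card_toLeft_le.trans hE)
      refine ⟨.inl l, rfl, fun h => e2 (Finset.mem_toLeft.2 h), ?_⟩
      rintro (t | t)
      · exact e3 t
      · intro h
        have a1 : S.hi l - S.lo l ≤ R.θ t := (hv _ _ _ h h).2
        have a2 := h1.wid l
        have a3 := (h2.tok t).2
        omega
    · let E' : Finset R.C := Finset.toRight (α := S.C) (β := R.C) E ∪
        univ.biUnion (fun t : S.T => univ.filter (fun c => ∃ l, R.comp l = c ∧ cov (.inr l) (.inl t)))
      have hE' : E'.card ≤ N + T1 := by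
        refine (Finset.card_union_le _ _).trans (Nat.add_le_add (Finset.card_toRight_le.trans hE) ?_)
        refine (Finset.card_biUnion_le_card_mul _ _ 1 (fun t _ => ?_)).trans (by simpa using h1.card)
        rw [Finset.card_le_one]
        intro c hc c' hc'
        simp only [mem_filter, mem_univ, true_and] at hc hc'
        obtain ⟨l, rfl, hl⟩ := hc
        obtain ⟨l', rfl, hl'⟩ := hc'
        exact Sum.inr_injective (hv _ _ _ hl hl').1
      obtain ⟨l, e1, e2, e3⟩ := h2.nb (fun l t => cov (.inr l) (.inr t)) (fun l l' t h h' => by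
        obtain ⟨e1, e2⟩ := hv _ _ _ h h'
        exact ⟨Sum.inr_injective e1, e2⟩) i E' hE'
      refine ⟨.inr l, congrArg Fin.succ e1,
        fun h => e2 (Finset.mem_union_left _ (Finset.mem_toRight.2 h)), ?_⟩
      rintro (t | t)
      · intro h
        apply e2
        refine Finset.mem_union_right _ (Finset.mem_biUnion.2 ⟨t, mem_univ _, ?_⟩)
        simp only [mem_filter, mem_univ, true_and]
        exact ⟨l, rfl, h⟩
      · exact e3 t

/-- One more layer of long tokens. -/
def level (R : Sys n) (N : ℕ) (sh : R.C → ℤ) (W : ℤ) : Sys 1 where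
  L := Fin (N + 1) ⊕ R.L
  T := Fin n ⊕ R.T
  C := Fin (N + 1) ⊕ Fin n × Bool
  fL := inferInstance
  fT := inferInstance
  fC := inferInstance
  comp := Sum.map id (fun l => (R.grp (R.comp l), R.side (R.comp l)))
  side := Sum.elim (fun _ => false) (fun c => c.2)
  grp := fun _ => 0
  lo := Sum.elim (fun _ => 0) (fun l => R.lo l + sh (R.comp l))
  hi := Sum.elim (fun _ => W) (fun l => R.hi l + sh (R.comp l))
  θ := Sum.elim (fun _ => W) R.θ

theorem good_level {a b N T : ℕ} {R : Sys (b * (N + 1))} {μ lam : ℤ} (hlam : 0 ≤ lam)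
    (h : R.Good a b 0 T μ lam) :
    ∃ (S : Sys 1) (W : ℤ), 0 ≤ W ∧ S.Good (a + 1) b N (b * (N + 1) + T) μ W := by
  classical
  obtain ⟨sh, D, hD, hsep⟩ := R.exists_shift lam hlam
  let W : ℤ := max D (max μ lam) + 1
  have hW1 : D < W := by have := le_max_left D (max μ lam); omega
  have hW2 : μ < W := by have := le_max_right D (max μ lam); have := le_max_left μ lam; omega
  have hW3 : lam < W := by have := le_max_right D (max μ lam); have := le_max_right μ lam; omega
  refine ⟨R.level N sh W, W, by omega, ?_, ?_, ?_, ?_, ?_, ?_, ?_⟩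
  · rintro (l | l) (l' | l') hne hc
    · exact (hne (congrArg Sum.inl (Sum.inl_injective hc))).elim
    · cases hc
    · cases hc
    · show R.hi l + sh (R.comp l) ≤ R.lo l' + sh (R.comp l') ∨
        R.hi l' + sh (R.comp l') ≤ R.lo l + sh (R.comp l)
      by_cases e : R.comp l = R.comp l'
      · have := h.disj l l' (fun e => hne (e ▸ rfl)) e
        rw [e]; omega
      · have := hsep l l' e
        omega
  · rintro (l | l)
    · show 0 + μ < W
      omega
    · show R.lo l + sh (R.comp l) + μ < R.hi l + sh (R.comp l)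
      have := h.wid l
      omega
  · rintro (t | t)
    · show 0 ≤ W ∧ W ≤ W
      omega
    · show 0 ≤ R.θ t ∧ R.θ t ≤ W
      have := h.tok t
      omega
  · have := h.card
    have : Fintype.card (R.level N sh W).T = Fintype.card (Fin (b * (N + 1))) + Fintype.card R.T :=
      Fintype.card_sum
    simp only [Fintype.card_fin] at this
    omega
  · obtain ⟨c, hv, hg⟩ := h.covX
    refine ⟨fun l t => match l, t with
      | .inr l, .inl t => R.side (R.comp l) = true ∧ R.grp (R.comp l) = t
      | .inr l, .inr t => c l t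
      | _, _ => False, ?_, ?_⟩
    · rintro (l | l) (l' | l') (t | t) h1 h2 <;> try exact h1.elim
      · exact h2.elim
      · exact h2.elim
      · refine ⟨congrArg Sum.inr (Prod.ext (h1.2.trans h2.2.symm) (h1.1.trans h2.1.symm)), ?_⟩
        show R.hi l + sh (R.comp l) - (R.lo l' + sh (R.comp l')) ≤ W
        have := hD l
        have := hD l'
        omega
      · obtain ⟨e1, e2⟩ := hv l l' t h1 h2
        refine ⟨congrArg Sum.inr (by simp only [e1]), ?_⟩
        show R.hi l + sh (R.comp l) - (R.lo l' + sh (R.comp l')) ≤ R.θ t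
        rw [e1]; omega
    · rintro (l | l) hs
      · cases hs
      · obtain ⟨g, hg1, hg2⟩ := hg l hs
        refine ⟨Fin.cons (.inl (R.grp (R.comp l))) (fun i => .inr (g i)), ?_, fun i => ?_⟩
        · rw [Fin.cons_injective_iff]
          exact ⟨by simp, fun i j e => hg1 (Sum.inr_injective e)⟩
        · refine Fin.cases ?_ (fun i => ?_) i
          · exact ⟨hs, rfl⟩
          · exact hg2 i
  · obtain ⟨c, hv, hg⟩ := h.covY
    refine ⟨fun l t => match l, t with
      | .inl p, .inl t => (finProdFinEquiv.symm t).2 = p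
      | .inr l, .inr t => c l t
      | _, _ => False, ?_, ?_⟩
    · rintro (l | l) (l' | l') (t | t) h1 h2 <;> try exact h1.elim
      · refine ⟨congrArg Sum.inl (h1.symm.trans h2), ?_⟩
        show W - 0 ≤ W
        omega
      · exact h2.elim
      · exact h2.elim
      · obtain ⟨e1, e2⟩ := hv l l' t h1 h2
        refine ⟨congrArg Sum.inr (by simp only [e1]), ?_⟩
        show R.hi l + sh (R.comp l) - (R.lo l' + sh (R.comp l')) ≤ R.θ t
        rw [e1]; omega
    · rintro (p | l) hs
      · refine ⟨fun i => .inl (finProdFinEquiv (i, p)), fun i j e => ?_, fun i => ?_⟩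
        · exact (Prod.ext_iff.1 (finProdFinEquiv.injective (Sum.inl_injective e))).1
        · show (finProdFinEquiv.symm (finProdFinEquiv (i, p))).2 = p
          rw [Equiv.symm_apply_apply]
      · obtain ⟨g, hg1, hg2⟩ := hg l hs
        exact ⟨fun i => .inr (g i), fun i j e => hg1 (Sum.inr_injective e), hg2⟩
  · intro cov hv i E hE
    let idx : Fin (N + 1) ⊕ Fin (b * (N + 1)) × Bool → Fin (N + 1) ⊕ Fin (b * (N + 1)) :=
      Sum.map id Prod.fst
    let Z : Finset (Fin (N + 1) ⊕ Fin (b * (N + 1))) := Finset.image idx E ∪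
      univ.biUnion (fun t : Fin (b * (N + 1)) => univ.filter (fun z =>
        ∃ l, idx ((R.level N sh W).comp l) = z ∧ cov l (.inl t)))
    have hZ : Z.card ≤ N + b * (N + 1) := by
      refine (Finset.card_union_le _ _).trans (Nat.add_le_add (Finset.card_image_le.trans hE) ?_)
      refine (Finset.card_biUnion_le_card_mul _ _ 1 (fun t _ => ?_)).trans (by simp)
      rw [Finset.card_le_one]
      intro c hc c' hc'
      simp only [mem_filter, mem_univ, true_and] at hc hc'
      obtain ⟨l, rfl, hl⟩ := hc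
      obtain ⟨l', rfl, hl'⟩ := hc'
      rw [(hv _ _ _ hl hl').1]
    have : ∃ z, z ∉ Z := by
      by_contra hc
      push Not at hc
      have : Z = univ := Finset.eq_univ_iff_forall.2 hc
      rw [this] at hZ
      simp at hZ
    obtain ⟨z, hz⟩ := this
    have hz1 : ∀ c, idx c = z → c ∉ E := fun c e hc =>
      hz (Finset.mem_union_left _ (Finset.mem_image.2 ⟨c, hc, e⟩))
    have hz2 : ∀ l t, idx ((R.level N sh W).comp l) = z → ¬ cov l (.inl t) := fun l t e hc =>
      hz (Finset.mem_union_right _ (Finset.mem_biUnion.2 ⟨t, mem_univ _, by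
        simp only [mem_filter, mem_univ, true_and]
        exact ⟨l, e, hc⟩⟩))
    rcases z with p | j
    · refine ⟨.inl p, Subsingleton.elim _ _, hz1 _ rfl, ?_⟩
      rintro (t | t)
      · exact hz2 _ _ rfl
      · intro hc
        have a1 : W - 0 ≤ R.θ t := (hv _ _ _ hc hc).2
        have a2 := (h.tok t).2
        omega
    · obtain ⟨l, e1, -, e3⟩ := h.nb (fun l t => cov (.inr l) (.inr t)) (fun l l' t h1 h2 => by
        have a1 : R.hi l + sh (R.comp l) - (R.lo l' + sh (R.comp l')) ≤ R.θ t := (hv _ _ _ h1 h2).2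
        have a2 : R.hi l' + sh (R.comp l') - (R.lo l + sh (R.comp l)) ≤ R.θ t := (hv _ _ _ h2 h1).2
        have a3 := (h.tok t).2
        by_cases e : R.comp l = R.comp l'
        · refine ⟨e, ?_⟩
          rw [e] at a1; omega
        · have := hsep l l' e
          omega) j ∅ (by simp)
      have e : idx ((R.level N sh W).comp (.inr l)) = .inr j := congrArg Sum.inr e1
      refine ⟨.inr l, Subsingleton.elim _ _, hz1 _ e, ?_⟩
      rintro (t | t)
      · exact hz2 _ _ e
      · exact e3 t

theorem exists_chain {a b : ℕ}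
    (H : ∀ N : ℕ, ∃ T : ℕ, ∀ μ : ℤ, ∃ (lam : ℤ) (S : Sys 1), 0 ≤ lam ∧ S.Good a b N T μ lam)
    (n N : ℕ) : ∃ T : ℕ, ∀ μ : ℤ, ∃ (lam : ℤ) (S : Sys n), 0 ≤ lam ∧ S.Good a b N T μ lam := by
  induction n generalizing N with
  | zero => exact ⟨0, fun μ => ⟨0, empty, le_rfl, good_empty a b N μ⟩⟩
  | succ n ih =>
    obtain ⟨T1, h1⟩ := H N
    obtain ⟨T2, h2⟩ := ih (N + T1)
    refine ⟨T1 + T2, fun μ => ?_⟩
    obtain ⟨l2, R, p2, g2⟩ := h2 μ
    obtain ⟨l1, S, p1, g1⟩ := h1 (max μ l2)
    exact ⟨max l1 l2, S.cons R, le_max_of_le_left p1,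
      good_cons g1 g2 (le_max_left _ _) (le_max_right _ _)⟩

theorem exists_good (a b N : ℕ) :
    ∃ T : ℕ, ∀ μ : ℤ, ∃ (lam : ℤ) (S : Sys 1), 0 ≤ lam ∧ S.Good a b N T μ lam := by
  induction a generalizing N with
  | zero => exact ⟨0, fun μ => ⟨0, base N μ, le_rfl, good_base b N μ⟩⟩
  | succ a ih =>
    obtain ⟨T, h⟩ := exists_chain ih (b * (N + 1)) 0
    refine ⟨b * (N + 1) + T, fun μ => ?_⟩
    obtain ⟨lam, R, p, g⟩ := h μ
    obtain ⟨S, W, hW, hS⟩ := good_level p g
    exact ⟨W, S, hW, hS⟩

end Sys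

/-- The purity gadget. -/
structure Gadget (r : ℕ) where
  L : Type
  T : Type
  fL : Fintype L
  fT : Fintype T
  side : L → Bool
  lo : L → ℤ
  hi : L → ℤ
  θ : T → ℤ
  D : ℕ
  pos : ∀ l, 0 ≤ lo l ∧ lo l < hi l ∧ hi l ≤ D
  disj : ∀ l l', l ≠ l' → hi l ≤ lo l' ∨ hi l' ≤ lo l
  tok : ∀ t, 0 ≤ θ t ∧ θ t ≤ D
  cover : ∀ s, ∃ g : (l : L) → side l = s → Fin r → T,
    (∀ l h, Function.Injective (g l h)) ∧
      ∀ l h l' h' i i', g l h i = g l' h' i' → hi l - lo l' ≤ θ (g l h i)
  nb : ∀ cov : L → T → Prop, (∀ l l' t, cov l t → cov l' t → hi l - lo l' ≤ θ t) →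
    ∃ l, ∀ t, ¬ cov l t

attribute [instance] Gadget.fL Gadget.fT

theorem exists_gadget (r : ℕ) : Nonempty (Gadget r) := by
  obtain ⟨T, h⟩ := Sys.exists_good r r 0
  obtain ⟨lam, S, hlam, h⟩ := h 0
  obtain ⟨sh, D, hD, hsep⟩ := S.exists_shift lam hlam
  refine ⟨{
    L := S.L, T := S.T, fL := S.fL, fT := S.fT, side := fun l => S.side (S.comp l)
    lo := fun l => S.lo l + sh (S.comp l), hi := fun l => S.hi l + sh (S.comp l), θ := S.θ
    D := (max D lam).toNat, pos := fun l => ?_, disj := fun l l' hne => ?_, tok := fun t => ?_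
    cover := fun s => ?_, nb := fun cov hv => ?_ }⟩
  · have := hD l
    have := h.wid l
    have := le_max_left D lam
    omega
  · by_cases e : S.comp l = S.comp l'
    · have := h.disj l l' hne e
      rw [e]; omega
    · have := hsep l l' e
      omega
  · have := h.tok t
    have := le_max_right D lam
    omega
  · have hc : S.Cover s r := by
      cases s
      exacts [h.covY, h.covX]
    obtain ⟨c, hv, hg⟩ := hc
    choose g hg1 hg2 using hg
    refine ⟨g, hg1, fun l hl l' hl' i i' e => ?_⟩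
    obtain ⟨e1, e2⟩ := hv l l' (g l hl i) (hg2 l hl i) (e ▸ hg2 l' hl' i')
    rw [e1]; omega
  · obtain ⟨l, -, -, e3⟩ := h.nb cov (fun l l' t h1 h2 => by
      have a1 := hv _ _ _ h1 h2
      have a2 := hv _ _ _ h2 h1
      have a3 := (h.tok t).2
      by_cases e : S.comp l = S.comp l'
      · refine ⟨e, ?_⟩
        rw [e] at a1; omega
      · have := hsep l l' e
        omega) 0 ∅ (by simp)
    exact ⟨l, e3⟩

end Crest.Agent.R318
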