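import Mathlib
import Crest.Prelude.Def_BinPacking

/-!
Half-integral solutions of the configuration programs.
-/

set_option autoImplicit false

namespace Crest.Agent.R318

open Finset Crest.BinPacking

theorem packsInto_equiv {ι κ : Type*} [Fintype ι] [Fintype κ] (e : κ ≃ ι) (a : ι → ℚ) (N : ℕ) :
    PacksInto (fun x => a (e x)) N ↔ PacksInto a N := by
  classical
  constructor
  · rintro ⟨g, hg⟩
    refine ⟨fun i => g (e.symm i), fun b => le_trans (le_of_eq ?_) (hg b)⟩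
    rw [Finset.sum_filter, Finset.sum_filter, ← Equiv.sum_comp e]
    simp
  · rintro ⟨g, hg⟩
    refine ⟨fun x => g (e x), fun b => le_trans (le_of_eq ?_) (hg b)⟩
    rw [Finset.sum_filter, Finset.sum_filter, ← Equiv.sum_comp e]

theorem exists_types {ι : Type} [Fintype ι] (a : ι → ℚ) :
    ∃ (m : ℕ) (σ : Fin m → ℚ) (mult : Fin m → ℕ) (e : ((j : Fin m) × Fin (mult j)) ≃ ι),
      Function.Injective σ ∧ (∀ j, 0 < mult j) ∧ ∀ x, a (e x) = σ x.1 := by
  classical
  let R : Finset ℚ := univ.image a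
  let e0 : Fin R.card ≃ R := R.equivFin.symm
  let cls : ι → Fin R.card := fun i => e0.symm ⟨a i, Finset.mem_image_of_mem _ (mem_univ i)⟩
  refine ⟨R.card, fun j => (e0 j : ℚ), fun j => Fintype.card {i // cls i = j},
    (Equiv.sigmaCongrRight (fun j => (Fintype.equivFin {i // cls i = j}).symm)).trans
      (Equiv.sigmaFiberEquiv cls), fun j j' h => e0.injective (Subtype.ext h), fun j => ?_,
    fun x => ?_⟩
  · obtain ⟨i, -, hi⟩ := Finset.mem_image.1 (e0 j).2
    refine Fintype.card_pos_iff.2 ⟨⟨i, ?_⟩⟩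
    simp only [cls]
    rw [Equiv.symm_apply_eq]
    exact Subtype.ext hi
  · obtain ⟨j, t⟩ := x
    have := ((Fintype.equivFin {i // cls i = j}).symm t).2
    simp only [cls] at this
    rw [Equiv.symm_apply_eq] at this
    exact congrArg Subtype.val this

theorem card_le_four {ι : Type*} (a : ι → ℚ) (ha : ∀ i, 1 / 5 < a i) (H : Finset ι)
    (hH : ∑ i ∈ H, a i ≤ 1) : H.card ≤ 4 := by
  by_contra hc
  have h5 : (5 : ℚ) ≤ H.card := by exact_mod_cast (by omega : 5 ≤ H.card)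
  have hne : H.Nonempty := Finset.card_pos.1 (by omega)
  have := Finset.sum_lt_sum_of_nonempty hne (fun i _ => ha i)
  rw [Finset.sum_const, nsmul_eq_mul] at this
  linarith

section
variable {ι W : Type} [Fintype ι] [DecidableEq ι] [Fintype W] {a : ι → ℚ} {B : ℕ}

omit [Fintype ι] in
theorem two_le_card (H : W → Finset ι) (h2 : ∀ i, ∃ w w', w ≠ w' ∧ i ∈ H w ∧ i ∈ H w') (i : ι) :
    2 ≤ (univ.filter (fun w => i ∈ H w)).card := by
  obtain ⟨w, w', h, h1, h2⟩ := h2 i
  exact Finset.one_lt_card.2 ⟨w, by simpa using h1, w', by simpa using h2, h⟩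

theorem copy_feasible (hW : Fintype.card W = 2 * B) (H : W → Finset ι)
    (hH : ∀ w, ∑ i ∈ H w, a i ≤ 1) (h2 : ∀ i, ∃ w w', w ≠ w' ∧ i ∈ H w ∧ i ∈ H w') :
    ∃ y : Finset ι → ℝ, CopyLPFeasible a y ∧ copyLPCost y = B := by
  refine ⟨fun X => ∑ w, if H w = X then 1 / 2 else 0, ⟨fun X => ?_, fun X hX => ?_, fun i => ?_⟩, ?_⟩
  · exact Finset.sum_nonneg (fun w _ => by split_ifs <;> norm_num)
  · obtain ⟨w, -, hw⟩ := Finset.exists_ne_zero_of_sum_ne_zero hX
    have : H w = X := by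
      by_contra h
      simp [h] at hw
    exact this ▸ hH w
  · rw [Finset.sum_comm]
    simp only [Finset.sum_ite_eq, mem_filter, mem_univ, true_and]
    rw [← Finset.sum_filter, Finset.sum_const, nsmul_eq_mul]
    have : (2 : ℝ) ≤ (univ.filter (fun w => i ∈ H w)).card := by exact_mod_cast two_le_card H h2 i
    linarith
  · unfold copyLPCost
    rw [Finset.sum_comm]
    simp only [Finset.sum_ite_eq, mem_univ, if_true, Finset.sum_const, Finset.card_univ, hW,
      nsmul_eq_mul]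
    push_cast; ring

theorem copy_lower (ha : ∀ i, 1 / 5 < a i) (hι : Fintype.card ι = 4 * B) (y : Finset ι → ℝ)
    (hy : CopyLPFeasible a y) : (B : ℝ) ≤ copyLPCost y := by
  obtain ⟨h0, h1, h2⟩ := hy
  have h3 : ∑ _i : ι, (1 : ℝ) ≤ ∑ i : ι, ∑ H ∈ univ.filter (fun H => i ∈ H), y H :=
    Finset.sum_le_sum (fun i _ => h2 i)
  simp only [Finset.sum_filter] at h3
  rw [Finset.sum_comm] at h3
  have h4 : ∑ H : Finset ι, ∑ i : ι, (if i ∈ H then y H else 0) ≤ ∑ H : Finset ι, 4 * y H := by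
    refine Finset.sum_le_sum (fun H _ => ?_)
    rw [← Finset.sum_filter, Finset.sum_const, nsmul_eq_mul]
    by_cases h : y H = 0
    · simp [h]
    · have := card_le_four a ha H (h1 H h)
      apply mul_le_mul_of_nonneg_right _ (h0 H)
      simp only [Finset.filter_mem_eq_inter, Finset.univ_inter]
      exact_mod_cast this
  rw [← Finset.mul_sum] at h4
  simp only [Finset.sum_const, Finset.card_univ, hι, nsmul_eq_mul] at h3
  push_cast at h3
  unfold copyLPCost
  linarith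

end

section
variable {m : ℕ} {σ : Fin m → ℚ} {mult : Fin m → ℕ} {W : Type} [Fintype W] {B : ℕ}

theorem type_feasible (hW : Fintype.card W = 2 * B) (H : W → Finset ((j : Fin m) × Fin (mult j)))
    (hH : ∀ w, ∑ i ∈ H w, σ i.1 ≤ 1) (h2 : ∀ i, ∃ w w', w ≠ w' ∧ i ∈ H w ∧ i ∈ H w') :
    ∃ z, TypeLPFeasible σ mult z ∧ typeLPCost z = B := by
  classical
  let cnt : W → Fin m → ℕ := fun w j => (univ.filter (fun t : Fin (mult j) => ⟨j, t⟩ ∈ H w)).card
  refine ⟨∑ w, Finsupp.single (cnt w) (1 / 2), ⟨fun c => ?_, fun c hc => ?_, fun j => ?_⟩, ?_⟩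
  · rw [Finsupp.finsetSum_apply]
    refine Finset.sum_nonneg (fun w _ => ?_)
    rw [Finsupp.single_apply]
    split_ifs <;> norm_num
  · rw [Finsupp.mem_support_iff, Finsupp.finsetSum_apply] at hc
    obtain ⟨w, -, hw⟩ := Finset.exists_ne_zero_of_sum_ne_zero hc
    have : cnt w = c := by
      by_contra h
      simp [h] at hw
    subst this
    refine le_trans (le_of_eq ?_) (hH w)
    rw [← Finset.univ_inter (H w), ← Finset.filter_mem_eq_inter, Finset.sum_filter,
      Fintype.sum_sigma]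
    refine Finset.sum_congr rfl (fun j _ => ?_)
    rw [← Finset.sum_filter]
    simp only [Finset.sum_const, nsmul_eq_mul, cnt]
    ring
  · rw [← Finsupp.sum_finsetSum_index (by simp) (by intros; ring)]
    have : ∀ w, (Finsupp.single (cnt w) (1 / 2 : ℝ)).sum (fun c v => (c j : ℝ) * v) =
        ∑ t : Fin (mult j), (if ⟨j, t⟩ ∈ H w then 1 else 0) * (1 / 2 : ℝ) := by
      intro w
      rw [Finsupp.sum_single_index (by simp), ← Finset.sum_mul]
      simp [cnt]
    simp only [this]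
    rw [Finset.sum_comm]
    have h3 : ∑ _t : Fin (mult j), (1 : ℝ) ≤ ∑ t : Fin (mult j), ∑ w,
        (if ⟨j, t⟩ ∈ H w then 1 else 0) * (1 / 2 : ℝ) := by
      refine Finset.sum_le_sum (fun t _ => ?_)
      rw [← Finset.sum_mul]
      have : (2 : ℝ) ≤ (univ.filter (fun w => ⟨j, t⟩ ∈ H w)).card := by
        exact_mod_cast two_le_card H h2 ⟨j, t⟩
      simp only [Finset.sum_boole]
      linarith
    simpa using h3
  · unfold typeLPCost
    rw [← Finsupp.sum_finsetSum_index (by simp) (by intros; ring)]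
    simp only [Finsupp.sum_single_index, Finset.sum_const, Finset.card_univ, hW, nsmul_eq_mul]
    push_cast; ring

theorem type_lower (ha : ∀ j, 1 / 5 < σ j) (hι : ∑ j, mult j = 4 * B) (z : (Fin m → ℕ) →₀ ℝ)
    (hz : TypeLPFeasible σ mult z) : (B : ℝ) ≤ typeLPCost z := by
  obtain ⟨h0, h1, h2⟩ := hz
  have h3 : ∑ j, (mult j : ℝ) ≤ ∑ j, z.sum (fun c v => (c j : ℝ) * v) :=
    Finset.sum_le_sum (fun j _ => h2 j)
  simp only [Finsupp.sum] at h3
  rw [Finset.sum_comm] at h3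
  have h4 : ∑ c ∈ z.support, ∑ j, (c j : ℝ) * z c ≤ ∑ c ∈ z.support, 4 * z c := by
    refine Finset.sum_le_sum (fun c hc => ?_)
    rw [← Finset.sum_mul]
    apply mul_le_mul_of_nonneg_right _ (h0 c)
    have h5 := card_le_four (fun i : (j : Fin m) × Fin (c j) => σ i.1) (fun i => ha i.1) univ (by
      refine le_trans (le_of_eq ?_) (h1 c hc)
      rw [Fintype.sum_sigma]
      simp [mul_comm])
    simp only [Finset.card_univ, Fintype.card_sigma, Fintype.card_fin] at h5
    exact_mod_cast h5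
  rw [← Finset.mul_sum] at h4
  have h5 : ∑ j, (mult j : ℝ) = 4 * B := by exact_mod_cast hι
  unfold typeLPCost Finsupp.sum
  linarith

end

theorem lp_gap {ι W : Type} [Fintype ι] [DecidableEq ι] [Fintype W] (a : ι → ℚ) (B c : ℕ)
    (ha : ∀ i, 1 / 5 < a i ∧ a i ≤ 1) (hι : Fintype.card ι = 4 * B) (hW : Fintype.card W = 2 * B)
    (H : W → Finset ι) (hH : ∀ w, ∑ i ∈ H w, a i ≤ 1)
    (h2 : ∀ i, ∃ w w', w ≠ w' ∧ i ∈ H w ∧ i ∈ H w') (hn : ¬ PacksInto a (B + c)) :
    ∃ (m : ℕ) (σ : Fin m → ℚ) (mult : Fin m → ℕ) (B : ℕ),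
      Function.Injective σ ∧ (∀ j, 0 < mult j) ∧ (∀ j, 1 / 6 < σ j ∧ σ j ≤ 1) ∧
      (∃ z, TypeLPFeasible σ mult z ∧ typeLPCost z = B) ∧
      (∀ z, TypeLPFeasible σ mult z → (B : ℝ) ≤ typeLPCost z) ∧
      (∃ y : Finset ((j : Fin m) × Fin (mult j)) → ℝ,
        CopyLPFeasible (fun i => σ i.1) y ∧ copyLPCost y = B) ∧
      (∀ y : Finset ((j : Fin m) × Fin (mult j)) → ℝ,
        CopyLPFeasible (fun i => σ i.1) y → (B : ℝ) ≤ copyLPCost y) ∧
      ¬ PacksInto (fun i : (j : Fin m) × Fin (mult j) => σ i.1) (B + c) := by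
  obtain ⟨m, σ, mult, e, h1, h3, h4⟩ := exists_types a
  have hσ : ∀ j, 1 / 5 < σ j ∧ σ j ≤ 1 := fun j => by
    have := ha (e ⟨j, ⟨0, h3 j⟩⟩)
    rwa [h4] at this
  have hc : Fintype.card ((j : Fin m) × Fin (mult j)) = 4 * B := (Fintype.card_congr e).trans hι
  have hH' : ∀ w, ∑ i ∈ (H w).map e.symm.toEmbedding, σ i.1 ≤ 1 := fun w => by
    rw [Finset.sum_map]
    refine le_trans (le_of_eq (Finset.sum_congr rfl (fun i _ => ?_))) (hH w)
    rw [← h4]; simp
  have h2' : ∀ i, ∃ w w', w ≠ w' ∧ i ∈ (H w).map e.symm.toEmbedding ∧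
      i ∈ (H w').map e.symm.toEmbedding := fun i => by
    simpa using h2 (e i)
  refine ⟨m, σ, mult, B, h1, h3, fun j => ⟨by linarith [(hσ j).1], (hσ j).2⟩,
    type_feasible hW _ hH' h2', type_lower (fun j => (hσ j).1) (by simpa using hc),
    copy_feasible hW _ hH' h2', copy_lower (fun i => (hσ i.1).1) hc, fun h => hn ?_⟩
  rw [← packsInto_equiv e]
  simpa only [h4] using h

end Crest.Agent.R318
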