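import Crest.Agent.R318.Sound
import Crest.Agent.R318.Complete
import Crest.Agent.R318.LP

/-!
The integrality gap instance: the formula `(x ∨ x) ∧ (¬x ∨ ¬x)`.
-/

set_option autoImplicit false

namespace Crest.Agent.R318

open Finset Crest.BinPacking

theorem Inst.adm {r : ℕ} {G : Gadget r} (I : Inst G) {Q : ℤ}
    (hQ : 67 * (8 * (I.Gs * 2 ^ (3 * I.n + 2)) + 1) ≤ Q) :
    Adm Q (8 * (I.Gs * 2 ^ (3 * I.n + 2)) + 1) (I.Gs * 2 ^ (3 * I.n + 2)) I.v where
  bound := I.v_bound
  big := by omega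
  pos := by have := I.Gs_pos; positivity
  den := hQ

/-- The contradictory formula. -/
def gapInst {r : ℕ} (G : Gadget r) (M : ℕ) : Inst G where
  n := 1
  m := 2
  k := 2
  M := M
  K := 4 * (2 : ℕ) * M + 4 + G.D
  var := fun _ _ => 0
  sgn := fun j _ => decide (j = 0)
  hK := le_rfl

theorem gap (c : ℕ) :
    ∃ (m : ℕ) (σ : Fin m → ℚ) (mult : Fin m → ℕ) (B : ℕ),
      Function.Injective σ ∧ (∀ j, 0 < mult j) ∧ (∀ j, 1 / 6 < σ j ∧ σ j ≤ 1) ∧
      (∃ z, TypeLPFeasible σ mult z ∧ typeLPCost z = B) ∧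
      (∀ z, TypeLPFeasible σ mult z → (B : ℝ) ≤ typeLPCost z) ∧
      (∃ y : Finset ((j : Fin m) × Fin (mult j)) → ℝ,
        CopyLPFeasible (fun i => σ i.1) y ∧ copyLPCost y = B) ∧
      (∀ y : Finset ((j : Fin m) × Fin (mult j)) → ℝ,
        CopyLPFeasible (fun i => σ i.1) y → (B : ℝ) ≤ copyLPCost y) ∧
      ¬ PacksInto (fun i : (j : Fin m) × Fin (mult j) => σ i.1) (B + c) := by
  obtain ⟨G⟩ := exists_gadget (10 * 2 * (448 * c) + 1)
  let I := gapInst G (1 * (2 * ((10 * 2 * (448 * c) + 1) + Fintype.card G.T) +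
    Fintype.card G.L * (10 * 2 * (448 * c) + 1) + 10 * (448 * c)) + 1)
  have hA := I.adm le_rfl
  choose π ρ h using fun b : Bool => I.core (fun _ => b)
  let d : I.U × Bool → I.U := fun w => match w.1 with
    | .inl x => .inl x
    | .inr (j, _, y) => .inr (j, if w.2 = decide (j = (0 : Fin 2)) then (0 : Fin 2) else (1 : Fin 2), y)
  refine lp_gap (W := I.U × Bool) (size _ _ I.v) (Fintype.card I.U) c hA.size_bounds
    (by simp [mul_comm]) (by simp [mul_comm])
    (fun w => {(w.1, 0), (π w.2 w.1, 1), (ρ w.2 w.1, 2), (d w, 3)}) (fun w => ?_) (fun i => ?_)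
    (fun hp => ?_)
  · apply hA.four_le
    apply I.row_ok (σ := fun _ => w.2) (h w.2 w.1)
    obtain ⟨x | ⟨j, s, y⟩, b⟩ := w
    · exact Or.inl ⟨x, rfl, rfl⟩
    · refine Or.inr ⟨j, s, y, _, y, rfl, rfl, fun hne => ?_⟩
      have : ¬ b = decide (j = (0 : Fin 2)) := hne
      simp only [this, if_false]
      exact one_ne_zero
  · obtain ⟨u, k⟩ := i
    fin_cases k
    · exact ⟨(u, false), (u, true), by simp, by simp, by simp⟩
    · exact ⟨((π false).symm u, false), ((π true).symm u, true), by simp, by simp, by simp⟩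
    · exact ⟨((ρ false).symm u, false), ((ρ true).symm u, true), by simp, by simp, by simp⟩
    · rcases u with x | ⟨j, s, y⟩
      · exact ⟨(.inl x, false), (.inl x, true), by simp, by simp [d], by simp [d]⟩
      · have hs : s = (0 : Fin 2) ∨ s = (1 : Fin 2) := by
          have : ∀ s : Fin 2, s = 0 ∨ s = 1 := by decide
          exact this s
        have h01 : (.inr (j, (0 : Fin 2), y) : I.U) ≠ .inr (j, (1 : Fin 2), y) := by
          intro e
          have : (0 : Fin 2) = 1 := congrArg (fun z => z.2.1) (Sum.inr_injective e)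
          exact zero_ne_one this
        rcases hs with rfl | rfl
        · exact ⟨(.inr (j, (0 : Fin 2), y), decide (j = (0 : Fin 2))),
            (.inr (j, (1 : Fin 2), y), decide (j = (0 : Fin 2))),
            fun e => h01 (congrArg Prod.fst e), by simp [d], by simp [d]⟩
        · exact ⟨(.inr (j, (0 : Fin 2), y), !decide (j = (0 : Fin 2))),
            (.inr (j, (1 : Fin 2), y), !decide (j = (0 : Fin 2))),
            fun e => h01 (congrArg Prod.fst e), by simp [d], by simp [d]⟩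
  · obtain ⟨σ, hσ⟩ := I.sound (F := 448 * c) (by norm_num [I, gapInst]) (Nat.lt_succ_self _)
      (Nat.lt_succ_self _) (hA.N4_of_pack c hp)
    obtain ⟨s0, h0⟩ := hσ (0 : Fin 2)
    obtain ⟨s1, h1⟩ := hσ (1 : Fin 2)
    have e0 : σ (0 : Fin 1) = true := h0
    have e1 : σ (0 : Fin 1) = false := h1
    rw [e0] at e1
    cases e1

end Crest.Agent.R318
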