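import Crest.Agent.R318.Tie
import Crest.Agent.R318.Gadget

/-!
The matching instance attached to a formula in conjunctive normal form: geometry of the segments.
-/

set_option autoImplicit false

namespace Crest.Agent.R318

open Finset

noncomputable instance {r : ℕ} (G : Gadget r) : DecidableEq G.L := Classical.decEq _
noncomputable instance {r : ℕ} (G : Gadget r) : DecidableEq G.T := Classical.decEq _

/-- Scale of the clause window `j`. -/
def wsc (K : ℤ) (m j : ℕ) : ℤ := K ^ (m - j)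

/-- Total length of a region. -/
def off (D A K : ℤ) (m : ℕ) : ℤ := D + (A + 4) * K ^ m

/-- A formula together with the numerical parameters. -/
structure Inst {r : ℕ} (G : Gadget r) where
  n : ℕ
  m : ℕ
  k : ℕ
  M : ℕ
  K : ℤ
  var : Fin m → Fin k → Fin n
  sgn : Fin m → Fin k → Bool
  hK : 4 * k * M + 4 + G.D ≤ K

namespace Inst

variable {r : ℕ} {G : Gadget r} (I : Inst G)

/-- Units. -/
abbrev U : Type := (Fin I.n × ((Fin r ⊕ G.T) ⊕ G.L × Fin r)) ⊕ (Fin I.m × Fin I.k × Fin I.M × Fin r)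

noncomputable instance instDecU : DecidableEq I.U := Classical.decEq _

/-- Segments. -/
abbrev Leaf : Type := Unit ⊕ G.L ⊕ (Fin I.m × Fin I.k × Fin I.M)

def A : ℤ := 4 * I.k * I.M
def O : ℤ := off G.D I.A I.K I.m
def w (j : ℕ) : ℤ := wsc I.K I.m j
def Gs : ℤ := 3 * I.O + 1

def leaf : I.U → I.Leaf
  | .inl (_, .inl _) => .inl ()
  | .inl (_, .inr (l, _)) => .inr (.inl l)
  | .inr (j, s, p, _) => .inr (.inr (j, s, p))

def llo : I.Leaf → ℤ
  | .inl _ => -I.O
  | .inr (.inl l) => G.lo l - I.O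
  | .inr (.inr (j, s, p)) => (2 * ((s : ℕ) * I.M + (p : ℕ) : ℕ) - I.A) * I.w j

def lhi : I.Leaf → ℤ
  | .inl _ => -I.O
  | .inr (.inl l) => G.hi l - I.O
  | .inr (.inr (j, s, p)) => (2 * ((s : ℕ) * I.M + (p : ℕ) : ℕ) + 2 - I.A) * I.w j

def lo (u : I.U) : ℤ := I.llo (I.leaf u)
def hi (u : I.U) : ℤ := I.lhi (I.leaf u)

def cell : I.U → Fin I.n
  | .inl (i, _) => i
  | .inr (j, s, _) => I.var j s

def rg : I.U → Bool
  | .inl (_, .inl _) => false
  | .inl (_, .inr (l, _)) => G.side l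
  | .inr (j, s, _) => I.sgn j s

def th : I.U → ℤ
  | .inl (_, .inl (.inl _)) => I.O
  | .inl (_, .inl (.inr t)) => G.θ t
  | _ => 0

def ph : I.U → ℤ
  | .inl _ => 0
  | .inr (j, _) => -(3 * I.w j)

def dl : I.U → ℤ
  | .inl _ => 0
  | .inr (j, s, _) => if (s : ℕ) = 0 then -(3 * I.w j) else -I.w j

/-- The values of the matching instance. -/
def v (c : Fin 4) (u : I.U) : ℤ :=
  val c I.Gs I.n (I.cell u) (I.rg u) (I.lo u) (I.hi u) (I.th u) (I.ph u) (I.dl u)

theorem A_nonneg : 0 ≤ I.A := by unfold A; positivity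

theorem K_ge : I.A + 4 + G.D ≤ I.K := I.hK

theorem K_four : 4 ≤ I.K := by have := I.K_ge; have := I.A_nonneg; omega

theorem w_pos (j : ℕ) : 0 < I.w j := pow_pos (by have := I.K_four; omega) _

theorem w_anti {j j' : ℕ} (h : j ≤ j') : I.w j' ≤ I.w j :=
  pow_le_pow_right₀ (by have := I.K_four; omega) (by omega)

theorem w_step {j j' : ℕ} (h : j < j') (h' : j' ≤ I.m) : I.K * I.w j' ≤ I.w j := by
  unfold w wsc
  rw [← pow_succ']
  exact pow_le_pow_right₀ (by have := I.K_four; omega) (by omega)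

theorem w_ge {j : ℕ} (h : j < I.m) : I.K ≤ I.w j := by
  have := I.w_step h le_rfl
  simpa [w, wsc] using this

theorem O_eq : I.O = G.D + (I.A + 4) * I.w 0 := rfl

theorem idx_bound (s : Fin I.k) (p : Fin I.M) :
    4 * (((s : ℕ) * I.M + (p : ℕ) : ℕ) : ℤ) + 4 ≤ I.A := by
  have h1 : (s : ℕ) * I.M + p + 1 ≤ I.k * I.M := by
    have := s.2
    have := p.2
    calc (s : ℕ) * I.M + p + 1 ≤ s * I.M + I.M := by omega
      _ = (s + 1) * I.M := by ring
      _ ≤ I.k * I.M := Nat.mul_le_mul_right _ (by omega)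
  have h2 : (((s : ℕ) * I.M + p + 1 : ℕ) : ℤ) ≤ (I.k * I.M : ℕ) := by exact_mod_cast h1
  unfold A
  push_cast at h2 ⊢
  linarith

theorem clause_lo (j : Fin I.m) (s : Fin I.k) (p : Fin I.M) :
    -(I.A * I.w j) ≤ I.llo (.inr (.inr (j, s, p))) := by
  have := I.w_pos j
  have h0 : (0 : ℤ) ≤ ((s : ℕ) * I.M + (p : ℕ) : ℕ) := by positivity
  simp only [llo]
  nlinarith

theorem clause_wid (j : Fin I.m) (s : Fin I.k) (p : Fin I.M) :
    I.lhi (.inr (.inr (j, s, p))) = I.llo (.inr (.inr (j, s, p))) + 2 * I.w j := by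
  simp only [llo, lhi]; ring

theorem clause_hi (j : Fin I.m) (s : Fin I.k) (p : Fin I.M) :
    2 * I.lhi (.inr (.inr (j, s, p))) ≤ -(I.A * I.w j) := by
  have := I.w_pos j
  have := I.idx_bound s p
  simp only [lhi]
  nlinarith

theorem clause_lt {j j' : Fin I.m} (h : j < j') (s s' : Fin I.k) (p p' : Fin I.M) :
    I.lhi (.inr (.inr (j, s, p))) ≤ I.llo (.inr (.inr (j', s', p'))) := by
  have h1 := I.clause_hi j s p
  have h2 := I.clause_lo j' s' p'
  have h3 := I.w_step h j'.2.le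
  have h4 := I.w_pos j'
  have h5 := I.K_four
  have h6 := I.A_nonneg
  have h7 : 2 * I.w j' ≤ I.w j := by nlinarith
  nlinarith

theorem Aw_le (j : ℕ) : I.A * I.w j ≤ I.A * I.w 0 :=
  mul_le_mul_of_nonneg_left (I.w_anti (Nat.zero_le _)) I.A_nonneg

theorem pure_hi (l : G.L) : I.lhi (.inr (.inl l)) ≤ -(I.A * I.w 0) - 4 * I.w 0 := by
  have := (G.pos l).2.2
  have := I.O_eq
  simp only [lhi]
  linarith

theorem D_le_O : (G.D : ℤ) + 4 * I.w 0 ≤ I.O := by
  have := I.O_eq
  have := mul_nonneg I.A_nonneg (I.w_pos 0).le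
  linarith

theorem llo_ge (a : I.Leaf) : -I.O ≤ I.llo a := by
  rcases a with _ | l | ⟨j, s, p⟩
  · exact le_rfl
  · have := (G.pos l).1
    simp only [llo]; omega
  · have := I.clause_lo j s p
    have := I.Aw_le j
    have := I.O_eq
    have := I.w_pos 0
    have : (0 : ℤ) ≤ G.D := by positivity
    linarith

theorem llo_le_lhi (a : I.Leaf) : I.llo a ≤ I.lhi a := by
  rcases a with _ | l | ⟨j, s, p⟩
  · exact le_rfl
  · have := (G.pos l).2.1
    simp only [llo, lhi]; omega
  · have := I.clause_wid j s p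
    have := I.w_pos j
    omega

theorem lhi_le (a : I.Leaf) : I.lhi a ≤ 0 := by
  have h0 := mul_nonneg I.A_nonneg (I.w_pos 0).le
  rcases a with _ | l | ⟨j, s, p⟩
  · have := I.D_le_O
    have := I.w_pos 0
    simp only [lhi]; omega
  · have := I.pure_hi l
    have := I.w_pos 0
    omega
  · have := I.clause_hi j s p
    have := mul_nonneg I.A_nonneg (I.w_pos j).le
    omega

theorem ldisj (a b : I.Leaf) (h : a ≠ b) : I.lhi a ≤ I.llo b ∨ I.lhi b ≤ I.llo a := by
  rcases a with _ | l | ⟨j, s, p⟩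
  · exact Or.inl (I.llo_ge b)
  · rcases b with _ | l' | ⟨j', s', p'⟩
    · exact Or.inr (I.llo_ge _)
    · have := G.disj l l' (fun e => h (e ▸ rfl))
      simp only [llo, lhi]; omega
    · left
      have := I.pure_hi l
      have := I.clause_lo j' s' p'
      have := I.Aw_le j'
      have := I.w_pos 0
      omega
  · rcases b with _ | l' | ⟨j', s', p'⟩
    · exact Or.inr (I.llo_ge _)
    · right
      have := I.pure_hi l'
      have := I.clause_lo j s p
      have := I.Aw_le j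
      have := I.w_pos 0
      omega
    · rcases lt_trichotomy j j' with e | e | e
      · exact Or.inl (I.clause_lt e _ _ _ _)
      · subst e
        have hne : (s : ℕ) * I.M + p ≠ (s' : ℕ) * I.M + p' := by
          intro e
          apply h
          have hp := p.2
          have hp' := p'.2
          have e1 : (s : ℕ) = s' := by
            have a := congrArg (· / I.M) e
            simp only [Nat.mul_comm _ I.M, Nat.mul_add_div (by omega : I.M > 0),
              Nat.div_eq_of_lt hp, Nat.div_eq_of_lt hp'] at a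
            exact a
          have e2 : (p : ℕ) = p' := by rw [e1] at e; omega
          rw [Fin.ext e1, Fin.ext e2]
        have hw := I.w_pos j
        simp only [llo, lhi]
        generalize (s : ℕ) * I.M + p = x at hne
        generalize (s' : ℕ) * I.M + p' = y at hne
        rcases lt_or_gt_of_ne hne with e | e
        · left
          have : (x : ℤ) + 1 ≤ y := by exact_mod_cast e
          nlinarith
        · right
          have : (y : ℤ) + 1 ≤ x := by exact_mod_cast e
          nlinarith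
      · exact Or.inr (I.clause_lt e _ _ _ _)

theorem lmono (a b : I.Leaf) (h : I.llo a < I.llo b) : I.lhi a ≤ I.lhi b := by
  have h1 := I.llo_le_lhi b
  rcases I.ldisj a b (fun e => by rw [e] at h; omega) with h2 | h2 <;> omega

theorem lsep (a b : I.Leaf) (h : I.llo a < I.llo b) : I.lhi a ≤ I.llo b := by
  have h1 := I.llo_le_lhi b
  rcases I.ldisj a b (fun e => by rw [e] at h; omega) with h2 | h2 <;> omega

theorem lwid (a : G.L ⊕ (Fin I.m × Fin I.k × Fin I.M)) : I.llo (.inr a) < I.lhi (.inr a) := by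
  rcases a with l | ⟨j, s, p⟩
  · have := (G.pos l).2.1
    simp only [llo, lhi]; omega
  · have := I.clause_wid j s p
    have := I.w_pos j
    omega

theorem leaf_inj (a b : G.L ⊕ (Fin I.m × Fin I.k × Fin I.M))
    (h : I.llo (.inr a) = I.llo (.inr b)) : a = b := by
  by_contra hne
  have h1 := I.lwid a
  have h2 := I.lwid b
  rcases I.ldisj (.inr a) (.inr b) (fun e => hne (Sum.inr_injective e)) with h3 | h3 <;> omega

theorem th_bounds (u : I.U) : 0 ≤ I.th u ∧ I.th u ≤ I.O := by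
  have := I.D_le_O
  have := I.w_pos 0
  rcases u with ⟨i, (q | t) | ⟨l, q⟩⟩ | ⟨j, s, p, q⟩ <;> simp only [th]
  · omega
  · have := G.tok t; omega
  · omega
  · omega

theorem dl_bounds (u : I.U) : -(3 * I.w 0) ≤ I.dl u ∧ I.dl u ≤ 0 := by
  have := I.w_pos 0
  rcases u with x | ⟨j, s, p, q⟩ <;> simp only [dl]
  · omega
  · have := I.w_pos j
    have := I.w_anti (Nat.zero_le j)
    split_ifs <;> omega

theorem ph_bounds (u : I.U) : -(3 * I.w 0) ≤ I.ph u ∧ I.ph u ≤ 0 := by
  have := I.w_pos 0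
  rcases u with x | ⟨j, s, p, q⟩ <;> simp only [ph]
  · omega
  · have := I.w_pos j
    have := I.w_anti (Nat.zero_le j)
    omega

theorem lo_bounds (u : I.U) : -I.O ≤ I.lo u ∧ I.lo u ≤ 0 :=
  ⟨I.llo_ge _, (I.llo_le_lhi _).trans (I.lhi_le _)⟩

theorem hi_bounds (u : I.U) : -I.O ≤ I.hi u ∧ I.hi u ≤ 0 :=
  ⟨(I.llo_ge _).trans (I.llo_le_lhi _), I.lhi_le _⟩

theorem Gs_gt (u a b c : I.U) : I.lo a + I.th b + I.dl c - I.hi u - I.ph u < I.Gs := by
  have := I.lo_bounds a
  have := I.th_bounds b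
  have := I.dl_bounds c
  have := I.hi_bounds u
  have := I.ph_bounds u
  have := I.D_le_O
  have := I.w_pos 0
  unfold Gs
  omega

theorem Gs_pos : 0 < I.Gs := by
  have := I.D_le_O
  have := I.w_pos 0
  unfold Gs
  omega

theorem v_bound (c : Fin 4) (u : I.U) : |I.v c u| ≤ I.Gs * 2 ^ (3 * I.n + 2) := by
  have := I.lo_bounds u
  have := I.th_bounds u
  have := I.dl_bounds u
  have := I.hi_bounds u
  have := I.ph_bounds u
  have := I.D_le_O
  have := I.w_pos 0
  have hG := I.Gs_pos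
  have e : I.Gs = 3 * I.O + 1 := rfl
  have h1 : I.Gs * 2 ^ (3 * (I.n - I.cell u) - 1 - (I.rg u).toNat) ≤ I.Gs * 2 ^ (3 * I.n) :=
    mul_le_mul_of_nonneg_left (two_pow_le (by omega)) hG.le
  have h2 : I.Gs * 2 ^ (3 * (I.n - I.cell u)) ≤ I.Gs * 2 ^ (3 * I.n) :=
    mul_le_mul_of_nonneg_left (two_pow_le (by omega)) hG.le
  have h3 : I.Gs * 2 ^ 0 ≤ I.Gs * 2 ^ (3 * I.n) :=
    mul_le_mul_of_nonneg_left (two_pow_le (by omega)) hG.le
  have h4 : 0 < I.Gs * 2 ^ (3 * (I.n - I.cell u) - 1 - (I.rg u).toNat) := by positivity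
  have h5 : 0 < I.Gs * 2 ^ (3 * (I.n - I.cell u)) := by positivity
  have h6 : I.Gs * 2 ^ (3 * I.n + 2) = 4 * (I.Gs * 2 ^ (3 * I.n)) := by ring
  rw [abs_le, h6]
  fin_cases c <;> simp [v, val] <;> constructor <;> omega

end Inst

end Crest.Agent.R318
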