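import Crest.Agent.R318.Perm
import Crest.Prelude.Def_BinPacking

/-!
Numerical four-dimensional matching with a bounded number of violated rows, and its relation to
bin packing with item sizes close to one quarter.
-/

set_option autoImplicit false

namespace Crest.Agent.R318

open Finset Crest.BinPacking

/-- Almost perfect numerical four-dimensional matching. -/
def N4 {U : Type} [Fintype U] (v : Fin 4 → U → ℤ) (F : ℕ) : Prop :=
  ∃ π ρ τ : Equiv.Perm U,
    (univ.filter (fun u => ¬ (v 0 u + v 1 (π u) + v 2 (ρ u) + v 3 (τ u) ≤ 0))).card ≤ F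

/-- Class digits. -/
def kap : Fin 4 → ℤ := ![-13, 1, 3, 9]

/-- Numerator of an item size. -/
def num (Q Big : ℤ) (c : Fin 4) (z : ℤ) : ℤ := Q + kap c * Big + 2 * z

/-- Item sizes. -/
def size {U : Type} (Q Big : ℤ) (v : Fin 4 → U → ℤ) (i : U × Fin 4) : ℚ :=
  (num Q Big i.2 (v i.2 i.1) : ℚ) / (4 * Q)

/-- Admissible scales. -/
structure Adm {U : Type} (Q Big V : ℤ) (v : Fin 4 → U → ℤ) : Prop where
  bound : ∀ c u, |v c u| ≤ V
  big : 8 * V < Big
  pos : 0 < Big
  den : 67 * Big ≤ Q

section
variable {U : Type} {Q Big V : ℤ} {v : Fin 4 → U → ℤ}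

theorem kap_bounds (c : Fin 4) : -13 ≤ kap c ∧ kap c ≤ 9 := by
  fin_cases c <;> simp [kap]

theorem Adm.num_bounds (h : Adm Q Big V v) (c : Fin 4) (u : U) :
    4 * Q < 5 * num Q Big c (v c u) ∧ num Q Big c (v c u) ≤ 4 * Q := by
  have h1 := abs_le.1 (h.bound c u)
  have h2 := h.big
  have h3 := h.den
  have h4 := h.pos
  obtain ⟨k1, k2⟩ := kap_bounds c
  have e1 : -13 * Big ≤ kap c * Big := by nlinarith
  have e2 : kap c * Big ≤ 9 * Big := by nlinarith
  unfold num
  constructor <;> omega

theorem Adm.Qpos (h : Adm Q Big V v) : 0 < Q := by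
  have := h.pos; have := h.den; omega

theorem Adm.size_bounds (h : Adm Q Big V v) (i : U × Fin 4) :
    1 / 5 < size Q Big v i ∧ size Q Big v i ≤ 1 := by
  obtain ⟨h1, h2⟩ := h.num_bounds i.2 i.1
  have hq : (0 : ℚ) < Q := by exact_mod_cast h.Qpos
  have h1' : (4 * Q : ℚ) < 5 * num Q Big i.2 (v i.2 i.1) := by exact_mod_cast h1
  have h2' : (num Q Big i.2 (v i.2 i.1) : ℚ) ≤ 4 * Q := by exact_mod_cast h2
  unfold size
  constructor
  · rw [div_lt_div_iff₀ (by norm_num) (by positivity)]; linarith
  · rw [div_le_one (by positivity)]; exact h2'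

theorem Adm.card_le (h : Adm Q Big V v) (H : Finset (U × Fin 4))
    (hH : ∑ i ∈ H, size Q Big v i ≤ 1) : H.card ≤ 4 := by
  by_contra hc
  have h5 : (5 : ℚ) ≤ H.card := by exact_mod_cast (by omega : 5 ≤ H.card)
  have hne : H.Nonempty := Finset.card_pos.1 (by omega)
  have := Finset.sum_lt_sum_of_nonempty hne (fun i _ => (h.size_bounds i).1)
  rw [Finset.sum_const, nsmul_eq_mul] at this
  linarith

theorem Adm.sum_le_iff (h : Adm Q Big V v) (H : Finset (U × Fin 4)) :
    ∑ i ∈ H, size Q Big v i ≤ 1 ↔ ∑ i ∈ H, num Q Big i.2 (v i.2 i.1) ≤ 4 * Q := by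
  have hq : (0 : ℚ) < Q := by exact_mod_cast h.Qpos
  unfold size
  rw [← Finset.sum_div, div_le_one (by positivity)]
  exact_mod_cast Iff.rfl

theorem Adm.four_le (h : Adm Q Big V v) [DecidableEq U] (a b c d : U)
    (hs : v 0 a + v 1 b + v 2 c + v 3 d ≤ 0) :
    ∑ i ∈ ({(a, 0), (b, 1), (c, 2), (d, 3)} : Finset (U × Fin 4)), size Q Big v i ≤ 1 := by
  rw [h.sum_le_iff]
  rw [Finset.sum_insert (by simp), Finset.sum_insert (by simp), Finset.sum_insert (by simp),
    Finset.sum_singleton]
  simp only [num, kap]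
  simp
  omega

theorem Adm.pack_of_N4 [Fintype U] [DecidableEq U] (h : Adm Q Big V v) (hN : N4 v 0) :
    PacksInto (size Q Big v) (Fintype.card U) := by
  obtain ⟨π, ρ, τ, hc⟩ := hN
  have hall : ∀ u, v 0 u + v 1 (π u) + v 2 (ρ u) + v 3 (τ u) ≤ 0 := by
    intro u
    by_contra hu
    have : (univ.filter (fun u => ¬ (v 0 u + v 1 (π u) + v 2 (ρ u) + v 3 (τ u) ≤ 0))).Nonempty :=
      ⟨u, by simpa using hu⟩
    have := Finset.card_pos.2 this
    omega
  let e := Fintype.equivFin U
  let P : Fin 4 → Equiv.Perm U := ![1, π, ρ, τ]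
  refine ⟨fun i => e ((P i.2).symm i.1), fun b => ?_⟩
  have : univ.filter (fun i : U × Fin 4 => e ((P i.2).symm i.1) = b) =
      {(e.symm b, 0), (π (e.symm b), 1), (ρ (e.symm b), 2), (τ (e.symm b), 3)} := by
    ext ⟨u, c⟩
    simp only [mem_filter, mem_univ, true_and, mem_insert, mem_singleton, Prod.mk.injEq]
    rw [← Equiv.eq_symm_apply, Equiv.symm_apply_eq]
    fin_cases c <;> simp [P]
  rw [this]
  exact h.four_le _ _ _ _ (hall _)

theorem digits_aux (a d e f : ℕ) (h1 : (a : ℤ) + d + e + f ≤ 4)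
    (h2 : (a : ℤ) + d + e + f = 4 → -13 * (a : ℤ) + d + 3 * e + 9 * f ≤ 0)
    (h3 : 28 * (4 - ((a : ℤ) + d + e + f)) - (-13 * (a : ℤ) + d + 3 * e + 9 * f) < 1) :
    a = 1 ∧ d = 1 ∧ e = 1 ∧ f = 1 := by
  have ha : a ≤ 4 := by omega
  have hd : d ≤ 4 := by omega
  have he : e ≤ 4 := by omega
  have hf : f ≤ 4 := by omega
  interval_cases a <;> interval_cases d <;> interval_cases e <;> interval_cases f <;> simp_all

theorem Adm.N4_of_pack [Fintype U] [DecidableEq U] (h : Adm Q Big V v) (c : ℕ)
    (hP : PacksInto (size Q Big v) (Fintype.card U + c)) : N4 v (448 * c) := by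
  classical
  obtain ⟨g, hg⟩ := hP
  let T : Fin (Fintype.card U + c) → Fin 4 → Finset U :=
    fun b k => univ.filter (fun u => g (u, k) = b)
  have hsum : ∀ (b) (f : U × Fin 4 → ℤ), ∑ i ∈ univ.filter (fun i => g i = b), f i =
      ∑ k, ∑ u ∈ T b k, f (u, k) := by
    intro b f
    rw [Finset.sum_filter, Fintype.sum_prod_type_right]
    refine Finset.sum_congr rfl (fun k _ => ?_)
    rw [Finset.sum_filter]
  have hcard : ∀ b, ((T b 0).card : ℤ) + (T b 1).card + (T b 2).card + (T b 3).card ≤ 4 := by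
    intro b
    have h1 := h.card_le _ (hg b)
    have h2 := hsum b (fun _ => 1)
    simp only [Finset.sum_const, nsmul_eq_mul, mul_one, Fin.sum_univ_four] at h2
    omega
  have htot : ∀ k, ∑ b, ((T b k).card : ℤ) = Fintype.card U := by
    intro k
    have := Finset.card_eq_sum_card_fiberwise (s := (univ : Finset U)) (t := univ)
      (f := fun u => g (u, k)) (fun _ _ => mem_univ _)
    rw [Finset.card_univ] at this
    exact_mod_cast this.symm
  have hnum : ∀ b, (((T b 0).card : ℤ) + (T b 1).card + (T b 2).card + (T b 3).card) * Q +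
      (-13 * (T b 0).card + (T b 1).card + 3 * (T b 2).card + 9 * (T b 3).card) * Big +
      2 * (∑ u ∈ T b 0, v 0 u + ∑ u ∈ T b 1, v 1 u + ∑ u ∈ T b 2, v 2 u + ∑ u ∈ T b 3, v 3 u)
        ≤ 4 * Q := by
    intro b
    have h1 := (h.sum_le_iff _).1 (hg b)
    rw [hsum b (fun i => num Q Big i.2 (v i.2 i.1))] at h1
    simp only [num, Fin.sum_univ_four, Finset.sum_add_distrib, Finset.sum_const, nsmul_eq_mul,
      ← Finset.mul_sum, kap] at h1
    simp at h1
    linarith
  have hlow : ∀ b k, -(((T b k).card : ℤ) * V) ≤ ∑ u ∈ T b k, v k u := by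
    intro b k
    have := Finset.sum_le_sum (s := T b k) (f := fun _ => -V) (g := fun u => v k u)
      (fun u _ => (abs_le.1 (h.bound k u)).1)
    simpa using this
  let reg : Fin (Fintype.card U + c) → Prop := fun b => ∀ k, (T b k).card = 1
  let w : Fin (Fintype.card U + c) → ℤ := fun b =>
    28 * (4 - (((T b 0).card : ℤ) + (T b 1).card + (T b 2).card + (T b 3).card)) -
      (-13 * (T b 0).card + (T b 1).card + 3 * (T b 2).card + 9 * (T b 3).card)
  have hw : ∀ b, (if reg b then 0 else 1) ≤ w b := by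
    intro b
    have h1 := hcard b
    have h2 := hnum b
    have l0 := hlow b 0
    have l1 := hlow b 1
    have l2 := hlow b 2
    have l3 := hlow b 3
    have hk : ((T b 0).card : ℤ) + (T b 1).card + (T b 2).card + (T b 3).card = 4 →
        -13 * ((T b 0).card : ℤ) + (T b 1).card + 3 * (T b 2).card + 9 * (T b 3).card ≤ 0 := by
      intro h4
      rw [h4] at h2
      have hV : (((T b 0).card : ℤ) + (T b 1).card + (T b 2).card + (T b 3).card) * V = 4 * V := by
        rw [h4]
      have hb := h.big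
      have hp := h.pos
      by_contra hk
      have : 1 * Big ≤ (-13 * ((T b 0).card : ℤ) + (T b 1).card + 3 * (T b 2).card +
        9 * (T b 3).card) * Big := mul_le_mul_of_nonneg_right (by omega) hp.le
      nlinarith
    split_ifs with hr
    · simp only [w, hr 0, hr 1, hr 2, hr 3]; norm_num
    · simp only [w]
      by_contra hlt
      apply hr
      obtain ⟨a0, a1, a2, a3⟩ := digits_aux _ _ _ _ h1 hk (by omega)
      intro k
      fin_cases k
      exacts [a0, a1, a2, a3]
  have hwsum : ∑ b, w b = 112 * c := by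
    simp only [w, Finset.sum_sub_distrib, Finset.sum_add_distrib, ← Finset.mul_sum, htot]
    simp
    ring
  have hirr : ((univ.filter (fun b => ¬ reg b)).card : ℤ) ≤ 112 * c := by
    rw [← hwsum]
    refine le_trans ?_ (Finset.sum_le_sum (fun b _ => hw b))
    rw [Finset.card_filter]
    push_cast
    refine le_of_eq (Finset.sum_congr rfl (fun b _ => ?_))
    by_cases hr : reg b <;> simp [hr]
  let S : Finset U := univ.filter (fun u => reg (g (u, 0)))
  have hS : (univ.filter (fun u => ¬ reg (g (u, 0)))).card ≤ 448 * c := by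
    have h1 : (univ.filter (fun u => ¬ reg (g (u, 0)))).card ≤
        4 * (univ.filter (fun b => ¬ reg b)).card := by
      apply Finset.card_le_mul_card_image_of_maps_to (f := fun u => g (u, 0))
      · intro u hu; simpa using hu
      · intro b _
        have h2 := hcard b
        have : ((univ.filter (fun u => ¬ reg (g (u, 0)))).filter (fun u => g (u, 0) = b)).card ≤
            (T b 0).card := Finset.card_le_card (fun u hu => by
              simp only [T, mem_filter, mem_univ, true_and] at hu ⊢; exact hu.2)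
        omega
    omega
  have hex : ∀ (k : Fin 4) (u : U), ∃ w, reg (g (u, 0)) → T (g (u, 0)) k = {w} := by
    intro k u
    by_cases hr : reg (g (u, 0))
    · obtain ⟨w, hw⟩ := Finset.card_eq_one.1 (hr k)
      exact ⟨w, fun _ => hw⟩
    · exact ⟨u, fun h' => (hr h').elim⟩
  choose f hf using hex
  have hf0 : ∀ u, reg (g (u, 0)) → f 0 u = u := by
    intro u hu
    have : u ∈ T (g (u, 0)) 0 := by simp [T]
    rw [hf 0 u hu] at this
    exact (Finset.mem_singleton.1 this).symm
  have hperm : ∀ k, ∃ P : Equiv.Perm U, ∀ u ∈ S, P u = f k u := by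
    intro k
    obtain ⟨P, -, hP⟩ := exists_perm_ext (fun _ : U => ()) S (f k) (by
      intro u hu u' hu' e
      have hu : reg (g (u, 0)) := by simpa [S] using hu
      have hu' : reg (g (u', 0)) := by simpa [S] using hu'
      have a1 : f k u ∈ T (g (u, 0)) k := by rw [hf k u hu]; simp
      have a2 : f k u' ∈ T (g (u', 0)) k := by rw [hf k u' hu']; simp
      simp only [T, mem_filter, mem_univ, true_and] at a1 a2
      have e2 : g (u, 0) = g (u', 0) := by rw [← a1, e, a2]
      have b1 := hf 0 u hu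
      have b2 := hf 0 u' hu'
      rw [e2, b2, hf0 u hu, hf0 u' hu'] at b1
      exact (Finset.singleton_injective b1).symm) (fun _ _ => rfl)
    exact ⟨P, hP⟩
  choose P hP using hperm
  refine ⟨P 1, P 2, P 3, le_trans (Finset.card_le_card ?_) hS⟩
  intro u hu
  simp only [mem_filter, mem_univ, true_and] at hu ⊢
  intro hr
  apply hu
  have huS : u ∈ S := by simpa [S] using hr
  have h2 := hnum (g (u, 0))
  rw [hf 0 u hr, hf 1 u hr, hf 2 u hr, hf 3 u hr, hf0 u hr] at h2
  simp only [Finset.card_singleton, Finset.sum_singleton] at h2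
  rw [hP 1 u huS, hP 2 u huS, hP 3 u huS]
  push_cast at h2
  omega

end

end Crest.Agent.R318
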