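import Mathlib

/-!
Permutation lemmas: extension of partial injections inside cells, cyclic successor maps,
and counting across a cut.
-/

set_option autoImplicit false

namespace Crest.Agent.R318

open Finset

theorem exists_perm_ext {U C : Type*} [DecidableEq U] (cell : U → C) (S : Finset U) (f : U → U)
    (hinj : Set.InjOn f S) (hc : ∀ u ∈ S, cell (f u) = cell u) :
    ∃ ρ : Equiv.Perm U, (∀ u, cell (ρ u) = cell u) ∧ ∀ u ∈ S, ρ u = f u := by
  induction S using Finset.induction_on with
  | empty => exact ⟨1, fun _ => rfl, by simp⟩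
  | insert a S ha ih =>
    obtain ⟨ρ, h1, h2⟩ := ih (hinj.mono (by simp)) (fun u hu => hc u (by simp [hu]))
    have hca := hc a (by simp)
    refine ⟨Equiv.swap (ρ a) (f a) * ρ, fun u => ?_, fun u hu => ?_⟩
    · simp only [Equiv.Perm.mul_apply, Equiv.swap_apply_def]
      split_ifs with e1 e2
      · rw [hca, ← h1 a, ← e1, h1]
      · rw [h1 a, ← hca, ← e2, h1]
      · exact h1 u
    · simp only [Equiv.Perm.mul_apply]
      rcases Finset.mem_insert.1 hu with rfl | hu'
      · simp
      · have e1 : ρ u ≠ ρ a := fun h => ha (ρ.injective h ▸ hu')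
        have e2 : ρ u ≠ f a := by
          rw [h2 u hu']
          intro h
          have := hinj (by simp [hu']) (by simp) h
          exact ha (this ▸ hu')
        rw [Equiv.swap_apply_of_ne_of_ne e1 e2, h2 u hu']

theorem exists_perm_cyc {U C : Type*} [Fintype U] [DecidableEq U] (grp : U → C) (key : U → ℤ)
    (hk : ∀ u v, grp u = grp v → key u = key v → u = v) :
    ∃ π : Equiv.Perm U, (∀ u, grp (π u) = grp u) ∧
      ∀ u, key u < key (π u) ∨ ∀ v, grp v = grp u → key v ≤ key u := by
  classical
  have hex : ∀ u, ∃ w, (∃ v, grp v = grp u ∧ key u < key v) →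
      grp w = grp u ∧ key u < key w ∧ ∀ v, grp v = grp u → key u < key v → key w ≤ key v := by
    intro u
    by_cases h : ∃ v, grp v = grp u ∧ key u < key v
    · obtain ⟨v, hv⟩ := h
      obtain ⟨w, hw, hmin⟩ := Finset.exists_min_image
        (univ.filter (fun v => grp v = grp u ∧ key u < key v)) key ⟨v, by simpa using hv⟩
      simp only [mem_filter, mem_univ, true_and] at hw hmin
      exact ⟨w, fun _ => ⟨hw.1, hw.2, fun v h1 h2 => hmin v ⟨h1, h2⟩⟩⟩
    · exact ⟨u, fun h' => (h h').elim⟩
  choose f hf using hex
  obtain ⟨π, h1, h2⟩ := exists_perm_ext grp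
    (univ.filter (fun u => ∃ v, grp v = grp u ∧ key u < key v)) f (by
      intro u hu u' hu' e
      simp only [coe_filter, mem_univ, true_and, Set.mem_ofPred_eq] at hu hu'
      obtain ⟨a1, a2, a3⟩ := hf u hu
      obtain ⟨b1, b2, b3⟩ := hf u' hu'
      have g : grp u = grp u' := by rw [← a1, e, b1]
      rcases lt_trichotomy (key u) (key u') with h | h | h
      · have := a3 u' g.symm h
        rw [e] at this; omega
      · exact hk _ _ g h
      · have := b3 u g h
        rw [← e] at this; omega) (by
      intro u hu
      simp only [mem_filter, mem_univ, true_and] at hu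
      exact (hf u hu).1)
  refine ⟨π, h1, fun u => ?_⟩
  by_cases h : ∃ v, grp v = grp u ∧ key u < key v
  · left
    rw [h2 u (by simpa using h)]
    exact (hf u h).2.1
  · right
    intro v hv
    by_contra hlt
    exact h ⟨v, hv, by omega⟩

theorem card_filter_perm {U : Type*} [Fintype U] [DecidableEq U] (π : Equiv.Perm U)
    (p : U → Prop) [DecidablePred p] :
    (univ.filter (fun u => p (π u))).card = (univ.filter p).card := by
  apply Finset.card_bij (fun u _ => π u)
  · intro a ha; simpa using ha
  · intro a _ b _ h; exact π.injective h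
  · intro b hb; exact ⟨π.symm b, by simpa using hb, by simp⟩

/-- As many points enter a set as leave it. -/
theorem card_cross {U : Type*} [Fintype U] [DecidableEq U] (π : Equiv.Perm U)
    (p : U → Prop) [DecidablePred p] :
    (univ.filter (fun u => ¬ p u ∧ p (π u))).card =
      (univ.filter (fun u => p u ∧ ¬ p (π u))).card := by
  have h1 := card_filter_perm π p
  have h2 := Finset.card_filter_add_card_filter_not (s := univ.filter (fun u => p (π u))) p
  have h3 := Finset.card_filter_add_card_filter_not (s := univ.filter p) (fun u => p (π u))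
  simp only [Finset.filter_filter] at h2 h3
  have e1 : univ.filter (fun u => p (π u) ∧ p u) = univ.filter (fun u => p u ∧ p (π u)) := by
    ext u; simp [and_comm]
  have e2 : univ.filter (fun u => p (π u) ∧ ¬ p u) = univ.filter (fun u => ¬ p u ∧ p (π u)) := by
    ext u; simp [and_comm]
  rw [e1, e2] at h2
  omega

/-- The cut inequality. -/
theorem card_cut {U : Type*} [DecidableEq U] (π : Equiv.Perm U) (A B W : Finset U)
    (hB : B ⊆ A) (hW : W ⊆ A) (hd : Disjoint B W) :
    W.card ≤ (A.filter (fun u => π u ∉ B)).card := by
  have h1 := Finset.card_filter_add_card_filter_not (s := A) (fun u => π u ∈ B)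
  have h2 : (A.filter (fun u => π u ∈ B)).card ≤ B.card :=
    Finset.card_le_card_of_injOn π (fun u hu => by simpa using (mem_filter.1 hu).2)
      (fun a _ b _ h => π.injective h)
  have h3 : (B ∪ W).card ≤ A.card := Finset.card_le_card (Finset.union_subset hB hW)
  rw [Finset.card_union_of_disjoint hd] at h3
  omega

end Crest.Agent.R318
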