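import Crest.Agent.R318.Gap
import Crest.Agent.PT.Arith

/-!
The reduction as a polynomial-time map.
-/

set_option autoImplicit false

namespace Crest.Agent.R318

open Finset Crest.BinPacking Crest.Agent.PT Crest.Enc

theorem exists_equiv_of_coe {ι : Type} [Fintype ι] (a : ι → ℚ) (l : List ℚ)
    (h : (l : Multiset ℚ) = ∑ i, {a i}) : ∃ e : Fin l.length ≃ ι, ∀ i, a (e i) = l.get i := by
  classical
  have h1 : (univ : Finset (Fin l.length)).val.map l.get = (univ : Finset ι).val.map a := by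
    rw [Fin.univ_val_map, List.ofFn_get, h, Finset.sum_eq_multiset_sum]
    rw [show (fun i => ({a i} : Multiset ℚ)) = (fun q => ({q} : Multiset ℚ)) ∘ a from rfl,
      ← Multiset.map_map, Multiset.sum_map_singleton]
  have h2 : ∀ q, Fintype.card {i // l.get i = q} = Fintype.card {i // a i = q} := by
    intro q
    have := congrArg (Multiset.count q) h1
    rw [Multiset.count_map, Multiset.count_map] at this
    rw [Fintype.card_subtype, Fintype.card_subtype]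
    simpa [Finset.card, eq_comm] using this
  exact ⟨Equiv.ofFiberEquiv (fun q => Fintype.equivOfCardEq (h2 q)),
    fun i => Equiv.ofFiberEquiv_map _ i⟩

theorem coe_flatMap {α β : Type} (l : List α) (f : α → List β) :
    ((l.flatMap f : List β) : Multiset β) = (l.map (fun a => (f a : Multiset β))).sum := by
  induction l with
  | nil => rfl
  | cons a l ih => simp [← ih]

theorem coe_flatMap_range {β : Type} (n : ℕ) (f : ℕ → List β) :
    (((List.range n).flatMap f : List β) : Multiset β) = ∑ i : Fin n, (f i : Multiset β) := by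
  rw [coe_flatMap, Fin.sum_univ_eq_sum_range (fun i => (f i : Multiset β)) n, Finset.sum_range]
  induction n with
  | zero => rfl
  | succ n ih => rw [List.range_succ, List.map_append, List.sum_append, ih, Fin.sum_univ_castSucc]; simp

theorem coe_flatMap_univ {α β : Type} [Fintype α] (f : α → List β) :
    (((univ : Finset α).toList.flatMap f : List β) : Multiset β) = ∑ i, (f i : Multiset β) := by
  rw [coe_flatMap, Finset.sum_map_toList]

/-- Concatenation over a fixed list. -/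
def catL {ι : Type} (l : List ι) (f : ι → Raw) : Raw := ⟨l.flatMap (fun i => (f i).val)⟩

theorem pt_catL {α ι : Type} [Enc α] (l : List ι) {f : α → ι → Raw}
    (hf : ∀ i, PT (fun a => f a i)) : PT (fun a => catL l (f a)) := by
  induction l with
  | nil => exact PT.const Raw.nil
  | cons i l ih => exact ((hf i).app ih).congr (fun a => rfl)

/-- The code of a fraction in lowest terms. -/
def fracCode (a d : ℤ) : Raw := Raw.cons (decide (a < 0)) ((absCodeR a).app (absCodeR d))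

@[fun_prop] theorem pt_fracCode {α : Type} [Enc α] {f g : α → ℤ} (hf : PT f) (hg : PT g) :
    PT (fun a => fracCode (f a) (g a)) :=
  PT.cons hf.intLtZero (hf.absCode.app hg.absCode)

theorem ratCode_eq (a : ℤ) (e : ℕ) (ha : Odd a) :
    ratCode ((a : ℚ) / ((2 ^ e : ℤ) : ℚ)) = (fracCode a (2 ^ e)).val := by
  have hc : Nat.Coprime a.natAbs ((2 : ℤ) ^ e).natAbs := by
    rw [Int.natAbs_pow]
    apply Nat.Coprime.pow_right
    exact Nat.coprime_two_right.2 (Int.natAbs_odd.2 ha)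
  have hp : (0 : ℤ) < 2 ^ e := by positivity
  have h1 := Rat.num_div_eq_of_coprime hp hc
  have h2 := Rat.den_div_eq_of_coprime hp hc
  have h3 : ((a : ℚ) / ((2 ^ e : ℤ) : ℚ)).den = ((2 : ℤ) ^ e).natAbs := by omega
  simp only [ratCode, h1, h3]
  rfl

theorem odd_num (e : ℕ) (V z : ℤ) (c : Fin 4) : Odd (num (2 ^ (e + 1)) (8 * V + 1) c z) := by
  unfold num
  fin_cases c
  · exact ⟨2 ^ e - 52 * V - 7 + z, by simp [kap]; ring⟩
  · exact ⟨2 ^ e + 4 * V + z, by simp [kap]; ring⟩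
  · exact ⟨2 ^ e + 12 * V + 1 + z, by simp [kap]; ring⟩
  · exact ⟨2 ^ e + 36 * V + 4 + z, by simp [kap]; ring⟩

@[fun_prop] theorem pt_toNat {α : Type} [Enc α] {f : α → Bool} (hf : PT f) :
    PT (fun a => (f a).toNat) :=
  (PT.cond hf (PT.const 1) (PT.const 0)).congr (fun a => by cases f a <;> rfl)

@[fun_prop] theorem pt_val {α : Type} [Enc α] (c : Fin 4) {Gs lo hi th ph dl : α → ℤ}
    {n cell : α → ℕ} {rg : α → Bool} (h1 : PT Gs) (h2 : PT n) (h3 : PT cell) (h4 : PT rg)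
    (h5 : PT lo) (h6 : PT hi) (h7 : PT th) (h8 : PT ph) (h9 : PT dl) :
    PT (fun a => val c (Gs a) (n a) (cell a) (rg a) (lo a) (hi a) (th a) (ph a) (dl a)) := by
  fin_cases c <;> simp only [val] <;> simp <;> fun_prop

@[fun_prop] theorem pt_num {α : Type} [Enc α] (c : Fin 4) {Q Big z : α → ℤ}
    (h1 : PT Q) (h2 : PT Big) (h3 : PT z) : PT (fun a => num (Q a) (Big a) c (z a)) := by
  unfold num; fun_prop

/-- A polynomial-time family of formulas of bounded width. -/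
structure Fam where
  k : ℕ
  n : Raw → ℕ
  m : Raw → ℕ
  var : Raw → ℕ → ℕ → ℕ
  sgn : Raw → ℕ → ℕ → Bool
  hn : PT n
  hm : PT m
  hvar : PT (fun p : Raw × ℕ × ℕ => var p.1 p.2.1 p.2.2)
  hsgn : PT (fun p : Raw × ℕ × ℕ => sgn p.1 p.2.1 p.2.2)
  hlt : ∀ x j s, var x j s < n x

namespace Fam

variable (Φ : Fam) {r : ℕ} (G : Gadget r) (C : ℕ)

def M (x : Raw) : ℕ := Φ.n x * C + 1
def K (x : Raw) : ℤ := 4 * Φ.k * Φ.M C x + 4 + G.D

/-- The instance attached to an input. -/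
def inst (x : Raw) : Inst G where
  n := Φ.n x
  m := Φ.m x
  k := Φ.k
  M := Φ.M C x
  K := Φ.K G C x
  var := fun j s => ⟨Φ.var x j s, Φ.hlt x j s⟩
  sgn := fun j s => Φ.sgn x j s
  hK := le_rfl

def O (x : Raw) : ℤ := (Φ.inst G C x).O
def w (x : Raw) (j : ℕ) : ℤ := (Φ.inst G C x).w j
def Gs (x : Raw) : ℤ := (Φ.inst G C x).Gs
def V (x : Raw) : ℤ := Φ.Gs G C x * 2 ^ (3 * Φ.n x + 2)
def ex (x : Raw) : ℕ := sz (67 * (8 * Φ.V G C x + 1))
def B (x : Raw) : ℕ :=
  Φ.n x * Fintype.card ((Fin r ⊕ G.T) ⊕ G.L × Fin r) + Φ.m x * (Φ.k * (Φ.M C x * r))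

/-- Values of the variable units. -/
def vP (x : Raw) (c : Fin 4) (i : ℕ) : (Fin r ⊕ G.T) ⊕ G.L × Fin r → ℤ
  | .inl (.inl _) => val c (Φ.Gs G C x) (Φ.n x) i false (-Φ.O G C x) (-Φ.O G C x) (Φ.O G C x) 0 0
  | .inl (.inr t) => val c (Φ.Gs G C x) (Φ.n x) i false (-Φ.O G C x) (-Φ.O G C x) (G.θ t) 0 0
  | .inr (l, _) => val c (Φ.Gs G C x) (Φ.n x) i (G.side l) (G.lo l - Φ.O G C x)
      (G.hi l - Φ.O G C x) 0 0 0

/-- Values of the clause units. -/
def vC (x : Raw) (c : Fin 4) (j s p : ℕ) : ℤ :=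
  val c (Φ.Gs G C x) (Φ.n x) (Φ.var x j s) (Φ.sgn x j s)
    ((2 * (s * Φ.M C x + p : ℕ) - 4 * Φ.k * Φ.M C x) * Φ.w G C x j)
    ((2 * (s * Φ.M C x + p : ℕ) + 2 - 4 * Φ.k * Φ.M C x) * Φ.w G C x j) 0
    (-(3 * Φ.w G C x j)) (if s = 0 then -(3 * Φ.w G C x j) else -Φ.w G C x j)

theorem v_inl (x : Raw) (c : Fin 4) (i : Fin (Φ.n x)) (y : (Fin r ⊕ G.T) ⊕ G.L × Fin r) :
    (Φ.inst G C x).v c (.inl (i, y)) = Φ.vP G C x c i y := by
  rcases y with (q | t) | ⟨l, q⟩ <;> rfl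

theorem v_inr (x : Raw) (c : Fin 4) (j : Fin (Φ.m x)) (s : Fin Φ.k) (p : Fin (Φ.M C x))
    (q : Fin r) : (Φ.inst G C x).v c (.inr (j, s, p, q)) = Φ.vC G C x c j s p := rfl

/-- Numerator of a size. -/
def nm (x : Raw) (c : Fin 4) (z : ℤ) : ℤ := num (2 ^ (Φ.ex G C x + 1)) (8 * Φ.V G C x + 1) c z

/-- The list of values, mapped through `f`. -/
noncomputable def items {β : Type} (x : Raw) (f : ℤ → List β) : List β :=
  (univ : Finset (Fin 4)).toList.flatMap (fun c =>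
    (List.range (Φ.n x)).flatMap (fun i =>
      (univ : Finset ((Fin r ⊕ G.T) ⊕ G.L × Fin r)).toList.flatMap (fun y =>
        f (Φ.nm G C x c (Φ.vP G C x c i y)))) ++
    (List.range (Φ.m x)).flatMap (fun j => (List.range Φ.k).flatMap (fun s =>
      (List.range (Φ.M C x)).flatMap (fun p => (List.range r).flatMap (fun _ =>
        f (Φ.nm G C x c (Φ.vC G C x c j s p)))))))

/-- The item sizes. -/
noncomputable def sizes (x : Raw) : List ℚ :=
  Φ.items G C x (fun z => [(z : ℚ) / ((2 ^ (Φ.ex G C x + 3) : ℤ) : ℚ)])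

/-- The coded item sizes. -/
noncomputable def body (x : Raw) : Raw :=
  catL (univ : Finset (Fin 4)).toList (fun c =>
    (Raw.concat (Φ.n x) (fun i =>
      catL (univ : Finset ((Fin r ⊕ G.T) ⊕ G.L × Fin r)).toList (fun y =>
        fracCode (Φ.nm G C x c (Φ.vP G C x c i y)) (2 ^ (Φ.ex G C x + 3))))).app
    (Raw.concat (Φ.m x) (fun j => Raw.concat Φ.k (fun s =>
      Raw.concat (Φ.M C x) (fun p => Raw.concat r (fun _ =>
        fracCode (Φ.nm G C x c (Φ.vC G C x c j s p)) (2 ^ (Φ.ex G C x + 3))))))))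

/-- The output of the reduction. -/
noncomputable def out (x : Raw) : Raw :=
  ((natCodeR (4 * Φ.B G C x)).app (Φ.body G C x)).app (natCodeR (Φ.B G C x))

theorem body_eq (x : Raw) : ((Φ.sizes G C x).map ratCode).flatten = (Φ.body G C x).val := by
  have h : ∀ c z, ratCode ((Φ.nm G C x c z : ℚ) / ((2 ^ (Φ.ex G C x + 3) : ℤ) : ℚ)) =
      (fracCode (Φ.nm G C x c z) (2 ^ (Φ.ex G C x + 3))).val :=
    fun c z => ratCode_eq _ _ (odd_num _ _ _ _)
  rw [← List.flatMap_def]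
  simp only [sizes, items, body, catL, List.flatMap_assoc, List.flatMap_append,
    List.flatMap_singleton, h, Raw.val_app, Raw.val_concat]

theorem sizes_coe (x : Raw) : (Φ.sizes G C x : Multiset ℚ) =
    ∑ i, {size (2 ^ (Φ.ex G C x + 1)) (8 * Φ.V G C x + 1) (Φ.inst G C x).v i} := by
  have e : ((2 ^ (Φ.ex G C x + 3) : ℤ) : ℚ) = 4 * ((2 ^ (Φ.ex G C x + 1) : ℤ) : ℚ) := by
    push_cast; ring
  rw [Fintype.sum_prod_type_right]
  simp only [sizes, items, coe_flatMap_univ, ← Multiset.coe_add, coe_flatMap_range,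
    Fintype.sum_sum_type, Fintype.sum_prod_type, Multiset.coe_singleton, size, e]
  rfl

theorem card_U (x : Raw) : Fintype.card (Φ.inst G C x).U = Φ.B G C x := by
  simp only [Fintype.card_sum, Fintype.card_prod, Fintype.card_fin, B]
  rfl

theorem adm (x : Raw) :
    Adm (2 ^ (Φ.ex G C x + 1)) (8 * Φ.V G C x + 1) (Φ.V G C x) (Φ.inst G C x).v := by
  apply Inst.adm
  show 67 * (8 * Φ.V G C x + 1) ≤ _
  have h1 := size_natAbs_le (67 * (8 * Φ.V G C x + 1))
  have h2 := Nat.lt_size_self (67 * (8 * Φ.V G C x + 1)).natAbs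
  have h3 : 2 ^ (67 * (8 * Φ.V G C x + 1)).natAbs.size ≤ 2 ^ (Φ.ex G C x + 1) :=
    Nat.pow_le_pow_right (by norm_num) (by unfold ex; omega)
  have h4 : ((67 * (8 * Φ.V G C x + 1)).natAbs : ℤ) ≤ (2 ^ (Φ.ex G C x + 1) : ℕ) := by
    exact_mod_cast (h2.trans_le h3).le
  push_cast at h4
  exact (le_abs_self _).trans h4

section pt

variable {α : Type} [Enc α] {f : α → Raw}

@[fun_prop] theorem pt_n (hf : PT f) : PT (fun a => Φ.n (f a)) := Φ.hn.comp hf
@[fun_prop] theorem pt_m (hf : PT f) : PT (fun a => Φ.m (f a)) := Φ.hm.comp hf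
@[fun_prop] theorem pt_var {g h : α → ℕ} (hf : PT f) (hg : PT g) (hh : PT h) :
    PT (fun a => Φ.var (f a) (g a) (h a)) := Φ.hvar.comp (hf.pair (hg.pair hh))
@[fun_prop] theorem pt_sgn {g h : α → ℕ} (hf : PT f) (hg : PT g) (hh : PT h) :
    PT (fun a => Φ.sgn (f a) (g a) (h a)) := Φ.hsgn.comp (hf.pair (hg.pair hh))
@[fun_prop] theorem pt_M (hf : PT f) : PT (fun a => Φ.M C (f a)) := by unfold M; fun_prop
@[fun_prop] theorem pt_K (hf : PT f) : PT (fun a => Φ.K G C (f a)) := by unfold K; fun_prop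
@[fun_prop] theorem pt_w {g : α → ℕ} (hf : PT f) (hg : PT g) :
    PT (fun a => Φ.w G C (f a) (g a)) := by
  show PT (fun a => Φ.K G C (f a) ^ (Φ.m (f a) - g a))
  fun_prop
@[fun_prop] theorem pt_O (hf : PT f) : PT (fun a => Φ.O G C (f a)) := by
  show PT (fun a => (G.D : ℤ) + (4 * Φ.k * Φ.M C (f a) + 4) * Φ.K G C (f a) ^ Φ.m (f a))
  fun_prop
@[fun_prop] theorem pt_Gs (hf : PT f) : PT (fun a => Φ.Gs G C (f a)) := by
  show PT (fun a => 3 * Φ.O G C (f a) + 1)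
  fun_prop
@[fun_prop] theorem pt_V (hf : PT f) : PT (fun a => Φ.V G C (f a)) := by unfold V; fun_prop
@[fun_prop] theorem pt_ex (hf : PT f) : PT (fun a => Φ.ex G C (f a)) := by unfold ex; fun_prop
@[fun_prop] theorem pt_B (hf : PT f) : PT (fun a => Φ.B G C (f a)) := by unfold B; fun_prop
@[fun_prop] theorem pt_nm (c : Fin 4) {g : α → ℤ} (hf : PT f) (hg : PT g) :
    PT (fun a => Φ.nm G C (f a) c (g a)) := by unfold nm; fun_prop
theorem pt_vP (c : Fin 4) (y : (Fin r ⊕ G.T) ⊕ G.L × Fin r) {g : α → ℕ} (hf : PT f) (hg : PT g) :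
    PT (fun a => Φ.vP G C (f a) c (g a) y) := by
  rcases y with (q | t) | ⟨l, q⟩ <;> simp only [vP] <;> fun_prop
@[fun_prop] theorem pt_vC (c : Fin 4) {g h k : α → ℕ} (hf : PT f) (hg : PT g) (hh : PT h)
    (hk : PT k) : PT (fun a => Φ.vC G C (f a) c (g a) (h a) (k a)) := by
  unfold vC; fun_prop

theorem pt_body : PT (Φ.body G C) := by
  unfold body
  refine pt_catL _ (fun c => PT.app ?_ ?_)
  · refine PT.concat Φ.hn (pt_catL _ (fun y => ?_))
    have := Φ.pt_vP G C c y (f := fun p : Raw × ℕ => p.1) (g := fun p => p.2) (by fun_prop)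
      (by fun_prop)
    fun_prop
  · refine PT.concat Φ.hm (PT.concat (by fun_prop) (PT.concat (by fun_prop)
      (PT.concat (by fun_prop) ?_)))
    fun_prop

theorem pt_out : PT (Φ.out G C) := by
  have := Φ.pt_body G C
  unfold out
  fun_prop

end pt

end Fam

theorem reduction (c : ℕ) (A : Set (List Bool)) (Φ : Fam) (hk : 0 < Φ.k)
    (hA : ∀ x : List Bool, x ∈ A ↔
      ∃ σ : ℕ → Bool, ∀ j < Φ.m ⟨x⟩, ∃ s < Φ.k, σ (Φ.var ⟨x⟩ j s) = Φ.sgn ⟨x⟩ j s) :
    ∃ f : List Bool → List Bool, Crest.Complexity.PolyTime f ∧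
      ∀ x : List Bool, ∃ (sizes : List ℚ) (B : ℕ),
        f x = natCode sizes.length ++ (sizes.map ratCode).flatten ++ natCode B ∧
        (∀ a ∈ sizes, 1 / 6 < a ∧ a ≤ 1) ∧
        (x ∈ A → PacksInto (fun i : Fin sizes.length => sizes.get i) B) ∧
        (x ∉ A → ¬ PacksInto (fun i : Fin sizes.length => sizes.get i) (B + c)) := by
  obtain ⟨G⟩ := exists_gadget (10 * Φ.k * (448 * c) + 1)
  let C := 2 * ((10 * Φ.k * (448 * c) + 1) + Fintype.card G.T) +
    Fintype.card G.L * (10 * Φ.k * (448 * c) + 1) + 10 * (448 * c)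
  refine ⟨fun x => (Φ.out G C ⟨x⟩).val, (Φ.pt_out G C).polyTime, fun x => ?_⟩
  obtain ⟨e, he⟩ := exists_equiv_of_coe _ _ (Φ.sizes_coe G C ⟨x⟩)
  have hA' := Φ.adm G C ⟨x⟩
  have hlen : (Φ.sizes G C ⟨x⟩).length = 4 * Φ.B G C ⟨x⟩ := by
    have := Fintype.card_congr e
    rw [Fintype.card_fin, Fintype.card_prod, Φ.card_U, Fintype.card_fin] at this
    omega
  have hp : ∀ N, PacksInto (fun i : Fin (Φ.sizes G C ⟨x⟩).length => (Φ.sizes G C ⟨x⟩).get i) N ↔
      PacksInto (size (2 ^ (Φ.ex G C ⟨x⟩ + 1)) (8 * Φ.V G C ⟨x⟩ + 1) (Φ.inst G C ⟨x⟩).v) N := by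
    intro N
    rw [← packsInto_equiv e]
    simp only [he]
  refine ⟨Φ.sizes G C ⟨x⟩, Φ.B G C ⟨x⟩, ?_, fun a ha => ?_, fun hx => ?_, fun hx h => hx ?_⟩
  · rw [hlen, Φ.body_eq]; rfl
  · obtain ⟨i, rfl⟩ := List.get_of_mem ha
    rw [← he]
    have := hA'.size_bounds (e i)
    exact ⟨by linarith [this.1], this.2⟩
  · rw [hp, ← Φ.card_U]
    obtain ⟨σ, hσ⟩ := (hA x).1 hx
    refine hA'.pack_of_N4 ((Φ.inst G C ⟨x⟩).complete hk (fun i => σ i) (fun j => ?_))
    obtain ⟨s, hs, h⟩ := hσ j j.2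
    exact ⟨⟨s, hs⟩, h⟩
  · rw [hp, ← Φ.card_U] at h
    obtain ⟨σ, hσ⟩ := (Φ.inst G C ⟨x⟩).sound (F := 448 * c) hk (Nat.lt_succ_self _)
      (Nat.lt_succ_self _) (hA'.N4_of_pack c h)
    refine (hA x).2 ⟨fun i => if h : i < Φ.n ⟨x⟩ then σ ⟨i, h⟩ else false, fun j hj => ?_⟩
    obtain ⟨s, hs⟩ := hσ ⟨j, hj⟩
    exact ⟨s, s.2, (dif_pos (Φ.hlt _ _ _)).trans hs⟩

end Crest.Agent.R318
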