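import Crest.Agent.R318.Inst

/-!
Soundness: an almost perfect matching of the instance yields a satisfying assignment.
-/

set_option autoImplicit false

namespace Crest.Agent.R318

open Finset

namespace Inst

variable {r : ℕ} {G : Gadget r} (I : Inst G)

/-- Units holding a long token. -/
def IsTop (u : I.U) : Prop := ∃ i q, u = .inl (i, .inl (.inl q))

/-- Units holding some token. -/
def IsHold (u : I.U) : Prop := ∃ i h, u = .inl (i, .inl h)

theorem th_nontop (u : I.U) (h : ¬ I.IsTop u) : I.th u ≤ G.D := by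
  rcases u with ⟨i, (q | t) | ⟨l, q⟩⟩ | ⟨j, s, p, q⟩ <;> simp only [th]
  · exact (h ⟨i, q, rfl⟩).elim
  · exact (G.tok t).2
  · positivity
  · positivity

theorem th_nonhold (u : I.U) (h : ¬ I.IsHold u) : I.th u = 0 := by
  rcases u with ⟨i, x | ⟨l, q⟩⟩ | ⟨j, s, p, q⟩
  · exact (h ⟨i, x, rfl⟩).elim
  · rfl
  · rfl

theorem th_pos (u : I.U) (h : ¬ I.IsTop u) (h' : 0 < I.th u) :
    ∃ t, u = .inl (I.cell u, .inl (.inr t)) := by
  rcases u with ⟨i, (q | t) | ⟨l, q⟩⟩ | ⟨j, s, p, q⟩
  · exact (h ⟨i, q, rfl⟩).elim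
  · exact ⟨t, rfl⟩
  · simp [th] at h'
  · simp [th] at h'

section
variable {I} {F1 : ℕ} {π ρ τ : Equiv.Perm I.U} {S : Finset I.U}

open Classical in
/-- Units of a region which receive a long token. -/
noncomputable def topSet (ρ : Equiv.Perm I.U) (S : Finset I.U) (i : Fin I.n) (b : Bool) :
    Finset I.U :=
  univ.filter (fun u => I.cell u = i ∧ I.rg u = b ∧ u ∈ S ∧ I.IsTop (ρ u))

theorem topSet_card (hS : ∀ u ∈ S, I.cell (ρ u) = I.cell u) (i : Fin I.n) (b : Bool) :
    (topSet ρ S i b).card + (topSet ρ S i (!b)).card ≤ r := by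
  classical
  rw [← Finset.card_union_of_disjoint (by
    rw [Finset.disjoint_left]
    intro u h1 h2
    simp only [topSet, mem_filter, mem_univ, true_and] at h1 h2
    have := h1.2.1.symm.trans h2.2.1
    simp at this)]
  have h1 : (topSet ρ S i b ∪ topSet ρ S i (!b)).card ≤
      (univ.image (fun q : Fin r => (.inl (i, .inl (.inl q)) : I.U))).card := by
    apply Finset.card_le_card_of_injOn ρ
    · intro u hu
      have : I.cell u = i ∧ u ∈ S ∧ I.IsTop (ρ u) := by
        simp only [coe_union, Set.mem_union, mem_coe, topSet, mem_filter, mem_univ, true_and] at hu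
        rcases hu with hu | hu <;> exact ⟨hu.1, hu.2.2⟩
      obtain ⟨e1, e2, i', q, e3⟩ := this
      have e4 := hS u e2
      rw [e3, e1] at e4
      simp only [coe_image, coe_univ, Set.image_univ, Set.mem_range]
      exact ⟨q, by rw [e3, ← e4]; rfl⟩
    · intro a _ b _ h; exact ρ.injective h
  exact h1.trans (Finset.card_image_le.trans (by simp))

variable (hF : ∀ i b, (univ.filter (fun u => I.cell u = i ∧ I.rg u = b ∧ u ∉ S)).card ≤ F1)
  (hS : ∀ u ∈ S, I.cell (ρ u) = I.cell u ∧ I.cell (π u) = I.cell u ∧ I.rg (π u) = I.rg u ∧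
    I.hi u - I.lo (π u) ≤ I.th (ρ u) + I.dl (τ u) - I.ph u)

include hF hS

theorem cover_leaf (i : Fin I.n) (b : Bool) (a : I.Leaf) (W : Fin r → I.U)
    (hW : Function.Injective W) (h1 : ∀ q, I.cell (W q) = i ∧ I.rg (W q) = b ∧ I.leaf (W q) = a)
    (Z : Finset I.U) (hZ : ∀ u ∈ S, I.cell u = i → I.rg u = b → I.lhi a ≤ I.hi u →
      I.lo (π u) ≤ I.llo a → ¬ I.IsTop (ρ u) → u ∈ Z) :
    r ≤ F1 + (topSet ρ S i b).card + Z.card := by
  classical
  have h := cover_ineq π (fun u => I.cell u = i ∧ I.rg u = b) S (fun u hu h =>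
    ⟨(hS u hu).2.1.trans h.1, (hS u hu).2.2.1.trans h.2⟩) I.lo I.hi (I.llo a) (I.lhi a)
    (fun u hu => I.lmono _ _ hu) (univ.image W) (fun u hu => by
      obtain ⟨q, -, rfl⟩ := Finset.mem_image.1 hu
      obtain ⟨e1, e2, e3⟩ := h1 q
      exact ⟨⟨e1, e2⟩, by rw [lo, e3], by rw [hi, e3]⟩)
  rw [Finset.card_image_of_injective _ hW, Finset.card_univ, Fintype.card_fin] at h
  have h2 := hF i b
  simp only [and_assoc] at h
  have h3 : (univ.filter (fun u => I.cell u = i ∧ I.rg u = b ∧ u ∈ S ∧ I.lhi a ≤ I.hi u ∧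
      I.lo (π u) ≤ I.llo a)).card ≤ (topSet ρ S i b ∪ Z).card := by
    apply Finset.card_le_card
    intro u hu
    simp only [mem_filter, mem_univ, true_and] at hu
    obtain ⟨a1, a2, a3, a4, a5⟩ := hu
    by_cases ht : I.IsTop (ρ u)
    · apply Finset.mem_union_left
      simp only [topSet, mem_filter, mem_univ, true_and]
      exact ⟨a1, a2, a3, ht⟩
    · exact Finset.mem_union_right _ (hZ u a3 a1 a2 a4 a5 ht)
  have h4 := Finset.card_union_le (topSet ρ S i b) Z
  omega

theorem exists_side (i : Fin I.n) : ∃ b, r ≤ F1 + (topSet ρ S i b).card := by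
  obtain ⟨l, hl⟩ := G.nb (fun l t => ∃ x, (.inl x : I.U) ∈ S ∧
      ρ (.inl x) = .inl (i, .inl (.inr t)) ∧ I.lo (π (.inl x)) ≤ G.lo l - I.O ∧
      G.hi l - I.O ≤ I.hi (.inl x)) (by
    rintro l l' t ⟨x, a1, a2, a3, a4⟩ ⟨x', b1, b2, b3, b4⟩
    have e : (.inl x : I.U) = .inl x' := ρ.injective (a2.trans b2.symm)
    rw [← e] at b3
    have h1 := (hS _ a1).2.2.2
    rw [a2] at h1
    have h2 := (I.dl_bounds (τ (.inl x))).2
    simp only [th, ph] at h1
    omega)
  refine ⟨G.side l, ?_⟩
  have := cover_leaf hF hS i (G.side l) (.inr (.inl l)) (fun q => .inl (i, .inr (l, q)))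
    (fun q q' e => by simpa using e) (fun q => ⟨rfl, rfl, rfl⟩) ∅ (by
      intro u hu e1 e2 a1 a2 ht
      exfalso
      have h1 := (hS _ hu).2.2.2
      have h2 := (I.dl_bounds (τ u)).2
      have h3 := I.lwid (.inl l)
      rcases u with x | ⟨j, s, p, q⟩
      · simp only [ph] at h1
        obtain ⟨t, ht'⟩ := I.th_pos _ ht (by omega)
        rw [(hS _ hu).1, e1] at ht'
        exact hl t ⟨x, hu, ht', a2, a1⟩
      · have h4 := I.th_nontop _ ht
        have h5 := I.clause_lo j s p
        have h6 := I.clause_wid j s p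
        have h7 := I.pure_hi l
        have h8 := I.Aw_le j
        have h9 := I.w_anti (Nat.zero_le j)
        have h10 := I.w_ge j.2
        have h11 := I.K_ge
        have h12 := I.A_nonneg
        simp only [ph, hi, leaf] at h1
        omega)
  simpa using this

theorem clause_cover (j : Fin I.m) (s : Fin I.k) (p : Fin I.M)
    (h : (topSet ρ S (I.var j s) (I.sgn j s)).card ≤ F1) :
    r ≤ 2 * F1 + (univ.filter (fun q : Fin r => (.inr (j, s, p, q) : I.U) ∈ S ∧
      I.lo (π (.inr (j, s, p, q))) ≤ I.lo (.inr (j, s, p, q)))).card := by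
  have := cover_leaf hF hS (I.var j s) (I.sgn j s) (.inr (.inr (j, s, p)))
    (fun q => .inr (j, s, p, q)) (fun q q' e => by simpa using e) (fun q => ⟨rfl, rfl, rfl⟩)
    ((univ.filter (fun q : Fin r => (.inr (j, s, p, q) : I.U) ∈ S ∧
      I.lo (π (.inr (j, s, p, q))) ≤ I.lo (.inr (j, s, p, q)))).image
        (fun q => .inr (j, s, p, q))) (by
      intro u hu e1 e2 a1 a2 ht
      have h1 := (hS _ hu).2.2.2
      have h2 := (I.dl_bounds (τ u)).2
      have h4 := I.th_nontop _ ht
      have h5 := I.clause_lo j s p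
      have h6 := I.clause_wid j s p
      have h8 := I.Aw_le j
      have h9 := I.w_pos j
      have h10 := I.w_pos 0
      rcases u with ⟨i, x | ⟨l, q⟩⟩ | ⟨j', s', p', q⟩
      · exfalso
        have := I.O_eq
        simp only [hi, leaf, lhi] at a1 h6
        nlinarith
      · exfalso
        have := I.pure_hi l
        simp only [hi, leaf] at a1
        omega
      · have e : (j', s', p') = (j, s, p) := by
          by_contra hne
          have g1 := I.clause_wid j' s' p'
          have g2 := I.w_ge j'.2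
          have g3 := I.K_ge
          have g4 := I.A_nonneg
          have g5 := I.w_pos j'
          have g6 : j ≤ j' := by
            by_contra hlt
            have := I.clause_lt (not_le.1 hlt) s' s p' p
            simp only [hi, leaf] at a1
            omega
          have g7 := I.w_anti (show (j : ℕ) ≤ j' from g6)
          simp only [ph, hi, leaf] at h1 a1
          rcases I.ldisj (.inr (.inr (j', s', p'))) (.inr (.inr (j, s, p)))
            (fun e => hne (by simpa using e)) with g | g <;> omega
        obtain ⟨rfl, rfl, rfl⟩ : j' = j ∧ s' = s ∧ p' = p := by simpa using e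
        refine Finset.mem_image.2 ⟨q, ?_, rfl⟩
        simp only [mem_filter, mem_univ, true_and]
        exact ⟨hu, a2⟩)
  have h2 := Finset.card_image_le (s := univ.filter (fun q : Fin r =>
    (.inr (j, s, p, q) : I.U) ∈ S ∧ I.lo (π (.inr (j, s, p, q))) ≤ I.lo (.inr (j, s, p, q))))
    (f := fun q => (.inr (j, s, p, q) : I.U))
  omega

theorem window_count (j : Fin I.m) (hk : 0 < I.k)
    (h : ∀ s, (topSet ρ S (I.var j s) (I.sgn j s)).card ≤ F1) :
    I.M * r ≤ I.k * I.M * (2 * F1) +
      I.n * (2 * (r + Fintype.card G.T) + Fintype.card G.L * r + 2 * F1) := by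
  classical
  let Z0 : Finset (Fin I.k × Fin I.M × Fin r) := univ.filter (fun x =>
    (.inr (j, x) : I.U) ∈ S ∧ I.lo (π (.inr (j, x))) ≤ I.lo (.inr (j, x)))
  have hZ0 : I.k * I.M * r ≤ I.k * I.M * (2 * F1) + Z0.card := by
    have e : Z0.card = ∑ s : Fin I.k, ∑ p : Fin I.M, (univ.filter (fun q : Fin r =>
        (.inr (j, s, p, q) : I.U) ∈ S ∧
          I.lo (π (.inr (j, s, p, q))) ≤ I.lo (.inr (j, s, p, q)))).card := by
      simp only [Z0, Finset.card_filter, Fintype.sum_prod_type]
    have h2 : ∑ s : Fin I.k, ∑ p : Fin I.M, r ≤ ∑ s : Fin I.k, ∑ p : Fin I.M, (2 * F1 +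
        (univ.filter (fun q : Fin r => (.inr (j, s, p, q) : I.U) ∈ S ∧
          I.lo (π (.inr (j, s, p, q))) ≤ I.lo (.inr (j, s, p, q)))).card) :=
      Finset.sum_le_sum (fun s _ => Finset.sum_le_sum (fun p _ => by
        convert clause_cover hF hS j s p (h s)))
    simp only [Finset.sum_add_distrib, ← e, Finset.sum_const, Finset.card_univ, Fintype.card_fin,
      smul_eq_mul] at h2
    simpa only [mul_assoc] using h2
  let Z : Finset I.U := Z0.image (fun x => .inr (j, x))
  have hZ : Z.card = Z0.card := Finset.card_image_of_injective _ (fun x y e => by simpa using e)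
  let W : Finset I.U := univ.filter (fun u => ∃ j' x, j < j' ∧ u = .inr (j', x))
  let E1 : Finset I.U := univ.filter (fun u => u ∉ S)
  let E2 : Finset I.U := univ.filter (fun u => I.IsHold (ρ u))
  let P : Finset I.U := univ.image (fun x => .inl x)
  let Tk : Finset I.U := (univ.filter (fun x : Fin I.k × Fin I.M × Fin r => (x.1 : ℕ) ≠ 0)).image
    (fun x => .inr (j, x))
  have hE1 : E1.card ≤ I.n * (2 * F1) := by
    have := Finset.card_le_mul_card_image_of_maps_to (s := E1) (t := (univ : Finset (Fin I.n × Bool)))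
      (f := fun u => (I.cell u, I.rg u)) (fun _ _ => mem_univ _) F1 (fun x _ => by
        refine le_trans (le_of_eq ?_) (hF x.1 x.2)
        congr 1
        ext u
        simp only [E1, mem_filter, mem_univ, true_and, Prod.ext_iff]
        tauto)
    simp only [Finset.card_univ, Fintype.card_prod, Fintype.card_fin, Fintype.card_bool] at this
    linarith
  have hE2 : E2.card ≤ I.n * (r + Fintype.card G.T) := by
    have e : E2.card = (univ.filter I.IsHold).card := card_filter_perm ρ I.IsHold
    rw [e]
    have : univ.filter I.IsHold ⊆ univ.image (fun x : Fin I.n × (Fin r ⊕ G.T) =>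
        (.inl (x.1, .inl x.2) : I.U)) := by
      intro u hu
      simp only [mem_filter, mem_univ, true_and] at hu
      obtain ⟨i, x, rfl⟩ := hu
      exact Finset.mem_image.2 ⟨(i, x), mem_univ _, rfl⟩
    exact (Finset.card_le_card this).trans (Finset.card_image_le.trans (by simp))
  have hP : P.card ≤ I.n * (r + Fintype.card G.T + Fintype.card G.L * r) :=
    Finset.card_image_le.trans (by simp)
  have hTk : Tk.card + I.M * r ≤ I.k * I.M * r := by
    have h1 := Finset.card_filter_add_card_filter_not (s := univ)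
      (fun x : Fin I.k × Fin I.M × Fin r => (x.1 : ℕ) ≠ 0)
    have h2 : (univ.image (fun y : Fin I.M × Fin r => ((⟨0, hk⟩ : Fin I.k), y))).card ≤
        (univ.filter (fun x : Fin I.k × Fin I.M × Fin r => ¬ (x.1 : ℕ) ≠ 0)).card := by
      apply Finset.card_le_card
      intro x hx
      obtain ⟨y, -, rfl⟩ := Finset.mem_image.1 hx
      simp
    rw [Finset.card_image_of_injective _ (fun x y e => by simpa using e)] at h2
    have h3 : Tk.card ≤ _ := Finset.card_image_le
    simp only [Finset.card_univ, Fintype.card_prod, Fintype.card_fin] at h1 h2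
    rw [mul_assoc]
    omega
  have hdisj : Disjoint Z W := by
    rw [Finset.disjoint_left]
    intro u h1 h2
    obtain ⟨x, -, rfl⟩ := Finset.mem_image.1 h1
    simp only [W, mem_filter, mem_univ, true_and] at h2
    obtain ⟨j', y, hlt, e⟩ := h2
    have : j = j' := by simpa using (Prod.ext_iff.1 (Sum.inr_injective e)).1
    exact hlt.ne this
  have hmap : ((Z ∪ W) \ (E1 ∪ E2)).card ≤ (P ∪ W ∪ Tk).card := by
    apply Finset.card_le_card_of_injOn τ _ (fun a _ b _ h => τ.injective h)
    intro u hu
    simp only [coe_sdiff, coe_union, Set.mem_sdiff, Set.mem_union, mem_coe, not_or, E1, E2,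
      mem_filter, mem_univ, true_and, not_not] at hu
    obtain ⟨hu, huS, huH⟩ := hu
    have h1 := (hS u huS).2.2.2
    rw [I.th_nonhold _ huH] at h1
    simp only [coe_union, Set.mem_union, mem_coe]
    generalize τ u = y at h1
    rcases y with y | ⟨j2, s2, y⟩
    · exact Or.inl (Or.inl (Finset.mem_image.2 ⟨y, mem_univ _, rfl⟩))
    have k0 := I.w_pos j2
    have k1 : I.dl (.inr (j2, s2, y)) ≤ -I.w j2 := by
      simp only [dl]; split_ifs <;> omega
    have k2 := I.K_ge
    have k3 := I.A_nonneg
    have k4 : (0 : ℤ) ≤ G.D := by positivity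
    rcases hu with hu | hu
    · obtain ⟨⟨s, p, q⟩, hx, rfl⟩ := Finset.mem_image.1 hu
      simp only [Z0, mem_filter, mem_univ, true_and] at hx
      have g1 := I.clause_wid j s p
      have g2 := hx.2
      have g3 := I.w_pos j
      simp only [ph, hi, leaf] at h1
      simp only [lo, leaf] at g2 h1
      rcases lt_trichotomy j2 j with e | e | e
      · exfalso
        have := I.w_step e j.2.le
        nlinarith
      · subst e
        right
        refine Finset.mem_image.2 ⟨(s2, y), ?_, rfl⟩
        simp only [mem_filter, mem_univ, true_and]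
        intro e
        simp only [dl, e, if_true] at h1
        omega
      · left; right
        simp only [W, mem_filter, mem_univ, true_and]
        exact ⟨j2, (s2, y), e, rfl⟩
    · simp only [W, mem_filter, mem_univ, true_and] at hu
      obtain ⟨j', ⟨s, p, q⟩, hlt, rfl⟩ := hu
      left; right
      simp only [W, mem_filter, mem_univ, true_and]
      refine ⟨j2, (s2, y), ?_, rfl⟩
      by_contra hc
      have g0 : j2 < j' := lt_of_le_of_lt (not_lt.1 hc) hlt
      have g1 := I.clause_wid j' s p
      have g2 := I.clause_lo j' s p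
      have g3 := I.w_pos j'
      have g4 := I.w_step g0 j'.2.le
      have g5 := (I.lo_bounds (π (.inr (j', s, p, q)))).2
      simp only [ph, hi, leaf] at h1
      nlinarith
  have c1 := Finset.le_card_sdiff (E1 ∪ E2) (Z ∪ W)
  have c2 := Finset.card_union_le E1 E2
  have c3 := Finset.card_union_le (P ∪ W) Tk
  have c4 := Finset.card_union_le P W
  rw [Finset.card_union_of_disjoint hdisj] at c1
  have e : I.n * (2 * (r + Fintype.card G.T) + Fintype.card G.L * r + 2 * F1) =
      I.n * (2 * F1) + I.n * (r + Fintype.card G.T) +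
        I.n * (r + Fintype.card G.T + Fintype.card G.L * r) := by ring
  omega

end

theorem sound {F : ℕ} (hk : 0 < I.k) (hr : 10 * I.k * F < r)
    (hM : I.n * (2 * (r + Fintype.card G.T) + Fintype.card G.L * r + 10 * F) < I.M)
    (h : N4 I.v F) : ∃ σ : Fin I.n → Bool, ∀ j, ∃ s, σ (I.var j s) = I.sgn j s := by
  classical
  obtain ⟨π, ρ, τ, S, hF, hS⟩ := exists_tight I.cell I.rg I.lo I.hi I.th I.ph I.dl I.Gs_gt
    I.Gs_pos.le h
  choose σ hσ using exists_side hF hS
  refine ⟨σ, fun j => ?_⟩
  by_contra hc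
  push Not at hc
  have h1 := window_count hF hS j hk (fun s => by
    have h2 := topSet_card (ρ := ρ) (S := S) (fun u hu => (hS u hu).1) (I.var j s) (σ (I.var j s))
    have h3 := hσ (I.var j s)
    have h4 : I.sgn j s = !σ (I.var j s) := by
      have := hc s
      revert this
      cases σ (I.var j s) <;> cases I.sgn j s <;> simp
    rw [h4]; omega)
  have e1 : 2 * (5 * F) = 10 * F := by ring
  rw [e1] at h1
  have h2 : I.M * (10 * I.k * F + 1) ≤ I.M * r := Nat.mul_le_mul_left _ hr
  have e2 : I.M * (10 * I.k * F + 1) = I.k * I.M * (10 * F) + I.M := by ring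
  omega

end Inst

end Crest.Agent.R318
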