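import Crest.Agent.R318.Pack

/-!
The top-scale digits tie the second and third items of a row to the cell of the first one.
-/

set_option autoImplicit false

namespace Crest.Agent.R318

open Finset

/-- Values of the four items of a unit. -/
def val (c : Fin 4) (Gs : ℤ) (n cell : ℕ) (rg : Bool) (lo hi th ph dl : ℤ) : ℤ :=
  ![-(Gs * 2 ^ (3 * (n - cell) - 1 - rg.toNat)) - Gs * 2 ^ (3 * (n - cell)) + hi + ph,
    Gs * 2 ^ (3 * (n - cell) - 1 - rg.toNat) - lo,
    Gs * 2 ^ (3 * (n - cell)) - th,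
    -dl] c

theorem two_pow_le {a b : ℕ} (h : a ≤ b) : (2 : ℤ) ^ a ≤ 2 ^ b :=
  pow_le_pow_right₀ (by norm_num) h

theorem tie_order {n i j k : ℕ} {b b' : Bool} (hi : i < n) (hj : j < n) (hk : k < n)
    (h : (2 : ℤ) ^ (3 * (n - j) - 1 - b'.toNat) + 2 ^ (3 * (n - k)) ≤
      2 ^ (3 * (n - i) - 1 - b.toNat) + 2 ^ (3 * (n - i))) :
    i ≤ k ∧ i ≤ j ∧ (k = i → 2 * i + b.toNat ≤ 2 * j + b'.toNat) := by
  have hb := b.toNat_le
  have hb' := b'.toNat_le
  have p1 : (0 : ℤ) < 2 ^ (3 * (n - j) - 1 - b'.toNat) := by positivity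
  have p2 : (0 : ℤ) < 2 ^ (3 * (n - k)) := by positivity
  have p3 : (0 : ℤ) < 2 ^ (3 * (n - i) - 1 - b.toNat) := by positivity
  have q1 : (2 : ℤ) ^ (3 * (n - i) - 1 - b.toNat + 1) ≤ 2 ^ (3 * (n - i)) := two_pow_le (by omega)
  rw [pow_succ] at q1
  refine ⟨?_, ?_, fun e => ?_⟩
  · by_contra hc
    have : (2 : ℤ) ^ (3 * (n - i) + 1) ≤ 2 ^ (3 * (n - k)) := two_pow_le (by omega)
    rw [pow_succ] at this
    omega
  · by_contra hc
    have : (2 : ℤ) ^ (3 * (n - i) + 1) ≤ 2 ^ (3 * (n - j) - 1 - b'.toNat) := two_pow_le (by omega)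
    rw [pow_succ] at this
    omega
  · by_contra hc
    have : (2 : ℤ) ^ (3 * (n - i) - 1 - b.toNat + 1) ≤ 2 ^ (3 * (n - j) - 1 - b'.toNat) :=
      two_pow_le (by omega)
    rw [pow_succ] at this
    subst e
    omega

theorem exists_tight {U : Type} [Fintype U] [DecidableEq U] {n F : ℕ} {Gs : ℤ}
    (cell : U → Fin n) (rg : U → Bool) (lo hi th ph dl : U → ℤ)
    (hG : ∀ u a b c, lo a + th b + dl c - hi u - ph u < Gs) (hG0 : 0 ≤ Gs)
    (h : N4 (fun c u => val c Gs n (cell u) (rg u) (lo u) (hi u) (th u) (ph u) (dl u)) F) :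
    ∃ (π ρ τ : Equiv.Perm U) (S : Finset U),
      (∀ i b, (univ.filter (fun u => cell u = i ∧ rg u = b ∧ u ∉ S)).card ≤ 5 * F) ∧
      ∀ u ∈ S, cell (ρ u) = cell u ∧ cell (π u) = cell u ∧ rg (π u) = rg u ∧
        hi u - lo (π u) ≤ th (ρ u) + dl (τ u) - ph u := by
  classical
  obtain ⟨π, ρ, τ, hc⟩ := h
  set bad := univ.filter (fun u => ¬ (
    val 0 Gs n (cell u) (rg u) (lo u) (hi u) (th u) (ph u) (dl u) +
    val 1 Gs n (cell (π u)) (rg (π u)) (lo (π u)) (hi (π u)) (th (π u)) (ph (π u)) (dl (π u)) +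
    val 2 Gs n (cell (ρ u)) (rg (ρ u)) (lo (ρ u)) (hi (ρ u)) (th (ρ u)) (ph (ρ u)) (dl (ρ u)) +
    val 3 Gs n (cell (τ u)) (rg (τ u)) (lo (τ u)) (hi (τ u)) (th (τ u)) (ph (τ u)) (dl (τ u)) ≤ 0))
    with hbad
  have hgood : ∀ u, u ∉ bad →
      Gs * (2 ^ (3 * (n - cell (π u)) - 1 - (rg (π u)).toNat) + 2 ^ (3 * (n - cell (ρ u))) -
        (2 ^ (3 * (n - cell u) - 1 - (rg u).toNat) + 2 ^ (3 * (n - cell u)))) +
        (hi u - lo (π u)) ≤ th (ρ u) + dl (τ u) - ph u := by
    intro u hu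
    simp only [hbad, mem_filter, mem_univ, true_and, not_not, val] at hu
    simp at hu
    linarith
  have hord : ∀ u, u ∉ bad → (cell u : ℕ) ≤ cell (ρ u) ∧ (cell u : ℕ) ≤ cell (π u) ∧
      ((cell (ρ u) : ℕ) = cell u → 2 * cell u + (rg u).toNat ≤ 2 * cell (π u) + (rg (π u)).toNat) := by
    intro u hu
    apply tie_order (cell u).2 (cell (π u)).2 (cell (ρ u)).2
    have h1 := hgood u hu
    have h2 := hG u (π u) (ρ u) (τ u)
    by_contra hlt
    have : Gs * 1 ≤ Gs * (2 ^ (3 * (n - cell (π u)) - 1 - (rg (π u)).toNat) +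
        2 ^ (3 * (n - cell (ρ u))) -
        (2 ^ (3 * (n - cell u) - 1 - (rg u).toNat) + 2 ^ (3 * (n - cell u)))) :=
      mul_le_mul_of_nonneg_left (by omega) hG0
    omega
  have hup : ∀ i : ℕ, (univ.filter (fun u => ¬ i < cell u ∧ i < cell (ρ u))).card ≤ F := by
    intro i
    rw [card_cross ρ (fun u => i < cell u)]
    refine le_trans (Finset.card_le_card (fun u hu => ?_)) hc
    simp only [mem_filter, mem_univ, true_and] at hu
    by_contra hb
    have := (hord u hb).1
    omega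
  refine ⟨π, ρ, τ, univ.filter (fun u => u ∉ bad ∧ cell (ρ u) = cell u ∧ cell (π u) = cell u ∧
    rg (π u) = rg u), fun i b => ?_, fun u hu => ?_⟩
  · have h3 : (univ.filter (fun u => ¬ 2 * (i : ℕ) + b.toNat < 2 * cell u + (rg u).toNat ∧
        2 * (i : ℕ) + b.toNat < 2 * cell (π u) + (rg (π u)).toNat)).card ≤ F + F := by
      rw [card_cross π (fun u => 2 * (i : ℕ) + b.toNat < 2 * cell u + (rg u).toNat)]
      refine le_trans (Finset.card_le_card (t := bad ∪
        univ.filter (fun u => ¬ (i : ℕ) < cell u ∧ (i : ℕ) < cell (ρ u))) (fun u hu => ?_))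
        ((Finset.card_union_le _ _).trans (Nat.add_le_add hc (hup i)))
      simp only [mem_filter, mem_univ, true_and] at hu
      by_cases hb : u ∈ bad
      · exact Finset.mem_union_left _ hb
      · refine Finset.mem_union_right _ ?_
        simp only [mem_filter, mem_univ, true_and]
        have := hord u hb
        have := b.toNat_le
        have := (rg u).toNat_le
        have := (rg (π u)).toNat_le
        omega
    refine le_trans (Finset.card_le_card (t := (bad ∪
      univ.filter (fun u => ¬ (i : ℕ) < cell u ∧ (i : ℕ) < cell (ρ u))) ∪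
      univ.filter (fun u => ¬ 2 * (i : ℕ) + b.toNat < 2 * cell u + (rg u).toNat ∧
        2 * (i : ℕ) + b.toNat < 2 * cell (π u) + (rg (π u)).toNat)) (fun u hu => ?_)) ?_
    · simp only [mem_filter, mem_univ, true_and] at hu
      obtain ⟨rfl, rfl, hu⟩ := hu
      simp only [mem_union, mem_filter, mem_univ, true_and]
      by_cases hb : u ∈ bad
      · exact Or.inl (Or.inl hb)
      · have h1 := hord u hb
        have h2 := (rg u).toNat_le
        have h3 := (rg (π u)).toNat_le
        by_cases e : (cell (ρ u) : ℕ) = cell u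
        · right
          refine ⟨by omega, ?_⟩
          by_contra hlt
          apply hu
          refine ⟨hb, Fin.ext e, Fin.ext (by omega), ?_⟩
          have : (rg (π u)).toNat = (rg u).toNat := by omega
          revert this
          cases rg (π u) <;> cases rg u <;> simp
        · left; right
          omega
    · have := Finset.card_union_le (bad ∪
        univ.filter (fun u => ¬ (i : ℕ) < cell u ∧ (i : ℕ) < cell (ρ u)))
        (univ.filter (fun u => ¬ 2 * (i : ℕ) + b.toNat < 2 * cell u + (rg u).toNat ∧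
        2 * (i : ℕ) + b.toNat < 2 * cell (π u) + (rg (π u)).toNat))
      have := Finset.card_union_le bad
        (univ.filter (fun u => ¬ (i : ℕ) < cell u ∧ (i : ℕ) < cell (ρ u)))
      have := hup i
      omega
  · simp only [mem_filter, mem_univ, true_and] at hu
    obtain ⟨hb, e1, e2, e3⟩ := hu
    refine ⟨e1, e2, e3, ?_⟩
    have := hgood u hb
    rw [e1, e2, e3] at this
    simpa using this

/-- Covering inequality inside a region. -/
theorem cover_ineq {U : Type} [Fintype U] [DecidableEq U] (π : Equiv.Perm U) (R : U → Prop)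
    [DecidablePred R] (S : Finset U) (hS : ∀ u ∈ S, R u → R (π u)) (lo hi : U → ℤ)
    (x y : ℤ) (mono : ∀ u, x < lo u → y ≤ hi u) (W : Finset U)
    (hW : ∀ u ∈ W, R u ∧ lo u = x ∧ hi u = y) :
    W.card ≤ (univ.filter (fun u => R u ∧ u ∉ S)).card +
      (univ.filter (fun u => R u ∧ u ∈ S ∧ y ≤ hi u ∧ lo (π u) ≤ x)).card := by
  have h := card_cut π (univ.filter (fun u => R u ∧ y ≤ hi u)) (univ.filter (fun u => R u ∧ x < lo u))
    W (fun u hu => by
      simp only [mem_filter, mem_univ, true_and] at hu ⊢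
      exact ⟨hu.1, mono u hu.2⟩) (fun u hu => by
      simp only [mem_filter, mem_univ, true_and]
      exact ⟨(hW u hu).1, (hW u hu).2.2.ge⟩) (by
      rw [Finset.disjoint_left]
      intro u hu hu'
      simp only [mem_filter, mem_univ, true_and] at hu
      have := (hW u hu').2.1
      omega)
  refine h.trans (le_trans (Finset.card_le_card (fun u hu => ?_)) (Finset.card_union_le _ _))
  simp only [mem_filter, mem_univ, true_and, mem_union] at hu ⊢
  by_cases hs : u ∈ S
  · right
    refine ⟨hu.1.1, hs, hu.1.2, ?_⟩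
    by_contra hlt
    exact hu.2 ⟨hS u hs hu.1.1, by omega⟩
  · exact Or.inl ⟨hu.1.1, hs⟩

end Crest.Agent.R318
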